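import Vale.Agent.P196.Full.Tiles.Equations.Classes

/-!
# P196: the values of the layers in the central block
-/

namespace Vale.Agent.P196.Full.Tiles

open Classical in
/-- The value of an inner horizontal layer in row `b` of the block. -/
noncomputable def rowVal (f : (Sg → Bool) → Bool) (M : ℕ) (T : Tile) (b : ℕ) : HL → Bool
  | .AR => decide (T.r.g.tagA = some b)
  | .AD => decide (T.d.g.tagA = some b)
  | .AU => decide (T.u.g.tagA = some b)
  | .BR => decide (T.r.g.tagB = some b)
  | .BD => decide (T.d.g.tagB = some b)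
  | .BU => decide (T.u.g.tagB = some b)
  | .P => shown T 1 b || decide (∃ q, b = sRow q ∧ sig f M T q = true)
  | .O k => decide (∃ c, T.tagCell = some c ∧ c.2 = b ∧ opBit f c.1 c.2 k = true)
  | _ => false

open Classical in
/-- The value of an inner vertical layer in column `a` of the block, on the edge below row `e`. -/
noncomputable def colVal (f : (Sg → Bool) → Bool) (M : ℕ) (T : Tile) (a e : ℕ) : VL → Bool
  | .CT => shown T 3 a
  | .AT => decide (T.u.g.tagA = some a)
  | .BT => decide (T.u.g.tagB = some a)
  | .Qm => usable a && decide (∀ q, sRow q < e → sig f M T q = patOf a q)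
  | .U c k => decide (a = (c : ℕ)) && coordBit (fun s => (T.gs s).coord c) e k
  | .Uk c p k => decide (a = (c : ℕ)) && coordBit (fun s => (T.gs s).coord c) (snap p) k
  | .O k => decide (a + 1 = 2 * K) &&
      decide (∃ c, T.tagCell = some c ∧ e ≤ c.2 ∧ opBit f c.1 c.2 k = true)
  | .O1 k => decide (a + 1 = 2 * K) && sig f M T (.op k)
  | _ => false

variable {f : (Sg → Bool) → Bool} {M : ℕ} {T : Tile}

lemma fillH_inner {x j b : ℕ} (hb : j + K = M + b) (hb' : b < 2 * K) {h : HL} (hh : h.IsInner) :
    fillH f M T x j h = (decide (M < x + K ∧ x < M + K) && rowVal f M T b h) := by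
  obtain rfl : b = j + K - M := by omega
  have h1 : M ≤ j + K ∧ j < M + K := by omega
  cases h <;> first | exact hh.elim | simp [fillH, rowVal, h1]

lemma fillV_inner {i y a : ℕ} (ha : i + K = M + a) (ha' : a < 2 * K) {h : VL} (hh : h.IsInner) :
    fillV f M T i y h = (decide (M < y + K ∧ y < M + K) && colVal f M T a (y + K - M) h) := by
  have e : i + K - M = a := by omega
  have h1 : M ≤ i + K ∧ i < M + K := by omega
  cases h <;> first | exact hh.elim | simp [fillV, colVal, e, h1, Bool.and_assoc]

/-- An inner horizontal layer at a cell of the block. -/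
lemma hin_child {i j a b : ℕ} (ha : i + K = M + a) (ha' : a < 2 * K) (hb : j + K = M + b)
    (hb' : b < 2 * K) {h : HL} (hh : h.IsInner) :
    (child f M T i j).hin a h = rowVal f M T b h := by
  have := K_large
  unfold Tile.hin
  split_ifs with h0
  · show fillH f M T (i + 1) j h = _
    rw [fillH_inner hb hb' hh, decide_eq_true (by omega), Bool.true_and]
  · show fillH f M T i j h = _
    rw [fillH_inner hb hb' hh, decide_eq_true (by omega), Bool.true_and]

/-- An inner vertical layer at a cell of the block. -/
lemma vin_child {i j a b : ℕ} (ha : i + K = M + a) (ha' : a < 2 * K) (hb : j + K = M + b)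
    (hb' : b < 2 * K) {h : VL} (hh : h.IsInner) :
    (child f M T i j).vin b h = colVal f M T a (max b 1) h := by
  have := K_large
  unfold Tile.vin
  split_ifs with h0
  · show fillV f M T i (j + 1) h = _
    rw [fillV_inner ha ha' hh, decide_eq_true (by omega), Bool.true_and,
      show j + 1 + K - M = max b 1 by omega]
  · show fillV f M T i j h = _
    rw [fillV_inner ha ha' hh, decide_eq_true (by omega), Bool.true_and,
      show j + K - M = max b 1 by omega]

lemma sig_side (s : Fin 4) (t : DI) (k : Fin 2) : sig f M T (.side s t k) = T.sideBit s t := rfl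

lemma rowVal_P_sRow (q : Sg) : rowVal f M T (sRow q) .P = sig f M T q := by
  rw [Bool.eq_iff_iff]
  simp only [rowVal, shown_sRow, Bool.false_or, decide_eq_true_eq]
  exact ⟨fun ⟨q', e, h⟩ => sRow_inj e ▸ h, fun h => ⟨q, rfl, h⟩⟩

lemma rowVal_P_other {b : ℕ} (hb : ∀ q, b ≠ sRow q) : rowVal f M T b .P = shown T 1 b := by
  have : ¬∃ q, b = sRow q ∧ sig f M T q = true := fun ⟨q, e, _⟩ => hb q e
  simp [rowVal, this]

/-- The bit of a Bus column on an edge of the block. -/
lemma fillV_bus {i y : ℕ} {a : ℕ} (ha : i + K = M + a) (ha' : a < 2 * K) (q : Sg) {h k : Fin 2}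
    (hq : a = sCol q h k) :
    fillV f M T i y .Bus = (decide (M < y + K ∧ y < 2 * M) && sig f M T q) := by
  have e : i + K - M = a := by omega
  have h1 : M ≤ i + K ∧ i < M + K := by omega
  rw [Bool.eq_iff_iff]
  simp only [fillV, e, h1, Bool.and_eq_true, decide_eq_true_eq, and_self, true_and]
  refine and_congr_right fun _ => ⟨fun ⟨q', h', k', e', hs⟩ => ?_, fun hs => ⟨q, h, k, hq, hs⟩⟩
  exact sCol_inj (e'.symm.trans hq) ▸ hs

/-- The signal read at the operation rows. -/
lemma sig_op (k : Fin 64) :
    sig f M T (.op k) = decide (∃ c, T.tagCell = some c ∧ opBit f c.1 c.2 k = true) := by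
  rw [Bool.eq_iff_iff]
  cases hc : T.tagCell <;> simp [sig, hc]

lemma coord_eq_some {g : GCol} {c : Fin 2} {b : ℕ} (hb : b < 2 * K) :
    g.coord c = some b ↔ (if c = 0 then g.tagA else g.tagB) = some b := by
  simp [GCol.coord, Option.filter_eq_some_iff, hb]

lemma coord_lt {g : GCol} {c : Fin 2} {w : ℕ} (h : g.coord c = some w) : w < 2 * K := by
  simp [GCol.coord, Option.filter_eq_some_iff] at h
  exact h.2

end Vale.Agent.P196.Full.Tiles
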