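import Vale.Agent.P196.Full.Tiles.Equations.Scans
import Vale.Agent.P196.Full.Tiles.Equations.Values

/-!
# P196: the bottom and top bits in the central block
-/

namespace Vale.Agent.P196.Full.Tiles

variable {F : (Sg → Bool) → Bool} {M : ℕ} {T : Tile} {i j a b : ℕ}

theorem blockV_child (hM : 4 * K ≤ M) (hT : GeomOK M T) (hF : F (sig F M T) = false)
    (ha : i + K = M + a) (ha' : a < 2 * K) (hb : j + K = M + b) (hb' : b < 2 * K) :
    BlockV F a b (child F M T i j) := by
  classical
  have := K_large
  have ea : i + K - M = a := by omega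
  have h1 : M ≤ i + K ∧ i < M + K := by omega
  have hC : ∀ y, fillV F M T i y .C = if y + 1 ≤ M + K then shown T 2 a else shown T 3 a :=
    fun y => by simp [fillV, ea, h1]
  have hA : ∀ y, fillV F M T i y .A =
      decide ((if y + 1 ≤ M + K then T.d.g.tagA else T.u.g.tagA) = some a) := fun y => by
    simp [fillV, ea, h1]
  have hB : ∀ y, fillV F M T i y .B =
      decide ((if y + 1 ≤ M + K then T.d.g.tagB else T.u.g.tagB) = some a) := fun y => by
    simp [fillV, ea, h1]
  have hd : b ≠ 0 → ∀ h : VL, h.IsInner → fillV F M T i j h = colVal F M T a b h := by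
    intro h0 h hh
    rw [fillV_inner ha ha' hh, decide_eq_true (by omega), Bool.true_and,
      show j + K - M = b by omega]
  have hu : b + 1 ≠ 2 * K → ∀ h : VL, h.IsInner →
      fillV F M T i (j + 1) h = colVal F M T a (b + 1) h := by
    intro h0 h hh
    rw [fillV_inner ha ha' hh, decide_eq_true (by omega), Bool.true_and,
      show j + 1 + K - M = b + 1 by omega]
  have hu0 : b + 1 = 2 * K → ∀ h : VL, h.IsInner → fillV F M T i (j + 1) h = false := by
    intro h0 h hh
    rw [fillV_inner ha ha' hh, decide_eq_false (by omega), Bool.false_and]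
  have hin : ∀ {h : HL}, h.IsInner → (child F M T i j).hin a h = rowVal F M T b h :=
    fun hh => hin_child ha ha' hb hb' hh
  have hU : ∀ (c : Fin 2) k, a = (c : ℕ) →
      fillV F M T i (j + 1) (.U c k) = coordBit (fun s => (T.gs s).coord c) (b + 1) k := by
    intro c k hc
    by_cases h : b + 1 = 2 * K
    · rw [hu0 h (.U c k) trivial, coordBit_eq_false fun s w hw => (coord_lt hw).trans_le h.ge]
    · rw [hu h (.U c k) trivial]; simp [colVal, hc]
  have hO : ∀ k, a + 1 = 2 * K → fillV F M T i (j + 1) (.O k) =
      decide (∃ c, T.tagCell = some c ∧ b + 1 ≤ c.2 ∧ opBit F c.1 c.2 k = true) := by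
    intro k hc
    by_cases h : b + 1 = 2 * K
    · rw [hu0 h (.O k) trivial, decide_eq_false]
      rintro ⟨⟨x, y⟩, hx, hy, -⟩
      have := ((hT.crossing x y).mp hx).2.1
      simp only at hy
      omega
    · rw [hu h (.O k) trivial]; simp [colVal, hc]
  have hmk : ∀ c : Fin 2, a = (c : ℕ) → (child F M T i j).tagMark a c =
      fun s => decide ((T.gs s).coord c = some b) := by
    intro c hc
    have e1 : fillH F M T i j .A = decide (T.l.g.tagA = some b) := by
      simp [fillH, show j + K - M = b by omega, show M ≤ j + K ∧ j < M + K by omega,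
        show i + 1 ≤ M + K by omega]
    have e2 : fillH F M T i j .B = decide (T.l.g.tagB = some b) := by
      simp [fillH, show j + K - M = b by omega, show M ≤ j + K ∧ j < M + K by omega,
        show i + 1 ≤ M + K by omega]
    have e0 : (child F M T i j).l.bit .A = fillH F M T i j .A ∧
        (child F M T i j).l.bit .B = fillH F M T i j .B := ⟨rfl, rfl⟩
    funext s
    fin_cases c <;> fin_cases s <;>
      simp [Tile.tagMark, Tile.gs, coord_eq_some hb', e0, e1, e2, hin (h := .AR) trivial,
        hin (h := .AD) trivial, hin (h := .AU) trivial, hin (h := .BR) trivial,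
        hin (h := .BD) trivial, hin (h := .BU) trivial, rowVal]
  have hval : a = K → b + 1 = 2 * K →
      (child F M T i j).valMark = fun s => decide ((T.gs s).val = some 0) := by
    intro haK he
    funext s
    simp only [Tile.valMark, child]
    fin_cases s <;> simp [Tile.gs, fillH, show M + K ≤ j + 1 by omega,
      show j + 1 - (M + K) = 0 by omega, show i ≤ M by omega, show ¬i + 1 ≤ M by omega,
      show M < i + 1 by omega, show i + 1 ≤ j by omega] <;> exact decide_eq_decide.mpr Iff.rfl
  constructor
  · intro hne h hh
    dsimp only [child]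
    rcases hh with rfl | rfl | rfl <;> simp only [hC, hA, hB] <;>
      rw [if_pos (by omega), if_pos (by omega)]
  · intro h0
    dsimp only [child]
    simp only [hC, shown_eq_false T _ a h0, ite_self, and_self]
  · intro hne
    dsimp only [child]
    simp [fillV, show ¬M + K ≤ i + 1 by omega]
  · intro hne
    dsimp only [child]
    by_cases h : a + 1 = 2 * K
    · simp [fillV, show j ≤ i by omega, show j + 1 ≤ i by omega]
    · simp [fillV, show ¬M + K ≤ i + 1 by omega]
  · intro h0 h hh
    dsimp only [child]
    rw [fillV_inner ha ha' hh, decide_eq_false (by omega), Bool.false_and]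
  · exact fun h0 h hh => hu0 h0 h hh
  · intro he
    dsimp only [child]
    rw [hd (by omega) .CT trivial, hd (by omega) .AT trivial, hd (by omega) .BT trivial, hC, hA, hB,
      if_neg (by omega), if_neg (by omega), if_neg (by omega)]
    exact ⟨rfl, rfl, rfl⟩
  · intro h0 hne h hh
    dsimp only [child]
    rcases hh with rfl | rfl | rfl
    · rw [hd h0 .CT trivial, hu hne .CT trivial]; rfl
    · rw [hd h0 .AT trivial, hu hne .AT trivial]; rfl
    · rw [hd h0 .BT trivial, hu hne .BT trivial]; rfl
  · intro h0
    dsimp only [child]
    simp [fillV, show ¬M < j + K by omega]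
  · intro h0
    dsimp only [child]
    simp [fillV, show M < j + K by omega, show M < j + 1 + K by omega, show j < 2 * M by omega,
      show j + 1 < 2 * M by omega]
  · intro h0
    dsimp only [child]
    have : ¬∃ q h k, a = sCol q h k ∧ sig F M T q = true := fun ⟨q, h, k, e, _⟩ => h0 q h k e
    constructor <;> simp only [fillV, ea, decide_eq_false this, Bool.and_false]
  · intro t k h k' hat hbt
    have := cPos_bounds t k
    simp only [Tile.vin, show b ≠ 0 by omega, if_false]
    dsimp only [child]
    rw [fillV_bus ha ha' _ hat, decide_eq_true (by omega), Bool.true_and, sig_side]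
    simp [fillH, show j + K - M = b by omega, show M ≤ j + K ∧ j < M + K by omega,
      show i + 1 ≤ M + K by omega, hbt, shown_cPos]
  · intro t k h k' hat hbt
    have := cPos_bounds t k
    rw [hin (h := .P) trivial]
    simp only [Tile.vin, show b ≠ 0 by omega, if_false]
    dsimp only [child]
    rw [fillV_bus ha ha' _ hat, decide_eq_true (by omega), Bool.true_and, sig_side, hbt,
      rowVal_P_other (fun q => cPos_ne_sRow t k q), shown_cPos]
  · intro hz
    dsimp only [child]
    simp [fillV_inner ha ha' (h := .Qm) trivial, colVal, hz]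
  · intro h0 hus
    dsimp only [child]
    rw [hu (by omega) .Qm trivial]
    simp only [colVal, hus, Bool.true_and, decide_eq_true_eq]
    intro q hq
    have := sRow_bounds q
    omega
  · intro h0 hne hq
    dsimp only [child]
    rw [hd h0 .Qm trivial, hu hne .Qm trivial]
    simp only [colVal]
    refine congrArg (usable a && ·) ?_
    refine decide_eq_decide.mpr ⟨fun h q hlt => h q (by omega), fun h q hlt => h q ?_⟩
    have := hq q
    omega
  · intro q hbq hus
    have := sRow_bounds q
    rw [hin (h := .P) trivial]
    dsimp only [child]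
    rw [hd (by omega) .Qm trivial, hu (by omega) .Qm trivial, hbq, rowVal_P_sRow]
    rw [Bool.eq_iff_iff]
    simp only [colVal, hus, Bool.true_and, Bool.and_eq_true, decide_eq_true_eq]
    refine ⟨fun h => ⟨fun q' hq' => h q' (by omega), h q (by omega)⟩, fun h q' hq' => ?_⟩
    rcases Nat.lt_succ_iff_lt_or_eq.mp hq' with hlt | heq
    · exact h.1 q' hlt
    · obtain rfl := sRow_inj heq
      exact h.2
  · intro he hus hp
    dsimp only [child]
    rw [hd (by omega) .Qm trivial]
    simp only [colVal, hus, Bool.true_and, decide_eq_false_iff_not]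
    intro h
    have e : sig F M T = patOf a := funext fun q => h q (by
      have := sRow_bounds q
      omega)
    rw [e, hp] at hF
    exact absurd hF (by decide)
  · intro hne k
    dsimp only [child]
    simp [fillV, show i ≠ M by omega]
  · intro h0 k
    dsimp only [child]
    simp [fillV, show ¬M < j + K by omega]
  · intro h0 hne k
    dsimp only [child]
    simp [fillV, show M < j + K by omega, show M < j + 1 + K by omega, show j < 2 * M by omega,
      show j + 1 < 2 * M by omega, show j + 1 - (M + K) = 0 by omega,
      show j + 1 + 1 - (M + K) = 0 by omega]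
  · intro haK he k
    rw [hval haK he]
    dsimp only [child]
    simp only [fillV, show i = M by omega, show M < j + K by omega, show M < j + 1 + K by omega,
      show j < 2 * M by omega, show j + 1 < 2 * M by omega, show j + 1 - (M + K) = 0 by omega,
      show j + 1 + 1 - (M + K) = 1 by omega, and_self, decide_true, Bool.true_and]
    rw [scanBit_step, decide_eq_true (rfl : (0 : ℕ) = 0),
      decide_eq_false (show ¬0 = M - K by omega)]
  · intro c hne k
    dsimp only [child]
    refine ⟨?_, ?_, fun p => ⟨?_, ?_⟩⟩ <;>
      simp [fillV_inner ha ha' (h := .U c k) trivial,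
        fillV_inner ha ha' (h := .Uk c _ k) trivial, colVal, hne]
  · intro c hc h0 k
    rw [hmk c hc]
    dsimp only [child]
    rw [hd h0 (.U c k) trivial]
    simp only [hU c _ hc]
    simp only [colVal, hc, decide_true, Bool.true_and]
    exact coordBit_step _ _
  · intro c p hc hp k
    rw [hmk c hc, vin_child ha ha' hb hb' (h := .Uk c p k) trivial]
    dsimp only [child]
    simp only [hU c _ hc]
    simp only [colVal, hc, decide_true, Bool.true_and, ← hp]
    exact coordBit_step _ _
  · intro h0 hne c p k
    dsimp only [child]
    rw [hd h0 (.Uk c p k) trivial, hu hne (.Uk c p k) trivial]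
    rfl
  · intro haK he
    rw [hval haK he]
    dsimp only [child]
    simp only [fillV, show i = M by omega, show M < j + 1 + K by omega,
      show j + 1 < 2 * M by omega, show j + 1 + 1 - (M + K) = 1 by omega, and_self, decide_true,
      Bool.true_and]
    exact scanOnce_scanBit hT.val_near
  · intro c hc
    rw [hmk c hc]
    dsimp only [child]
    simp only [hU c _ hc]
    exact coordOnce_coordBit (hT.coord_near c)
  · intro hne k
    dsimp only [child]
    simp [fillV_inner ha ha' (h := .O k) trivial, fillV_inner ha ha' (h := .O1 k) trivial,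
      colVal, hne]
  · intro he h0 k
    rw [hin (h := .O k) trivial]
    dsimp only [child]
    rw [hd h0 (.O k) trivial, hO k he]
    rw [Bool.eq_iff_iff]
    simp only [colVal, rowVal, he, decide_true, Bool.true_and, Bool.or_eq_true, decide_eq_true_eq]
    constructor
    · rintro ⟨c, h, hle, ho⟩
      rcases eq_or_lt_of_le hle with e | e
      · exact Or.inr ⟨c, h, e.symm, ho⟩
      · exact Or.inl ⟨c, h, e, ho⟩
    · rintro (⟨c, h, hle, ho⟩ | ⟨c, h, e, ho⟩)
      · exact ⟨c, h, by omega, ho⟩
      · exact ⟨c, h, e.ge, ho⟩
  · intro he h0 k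
    rw [hin (h := .O k) trivial]
    dsimp only [child]
    rw [hu (by omega) (.O1 k) trivial, hO k he]
    rw [Bool.eq_iff_iff]
    simp only [colVal, rowVal, he, decide_true, Bool.true_and, sig_op, Bool.or_eq_true,
      decide_eq_true_eq]
    constructor
    · rintro ⟨c, h, ho⟩
      rcases Nat.eq_zero_or_pos c.2 with e | e
      · exact Or.inr ⟨c, h, by omega, ho⟩
      · exact Or.inl ⟨c, h, by omega, ho⟩
    · rintro (⟨c, h, hle, ho⟩ | ⟨c, h, e, ho⟩) <;> exact ⟨c, h, ho⟩
  · intro h0 hne k
    dsimp only [child]
    rw [hd h0 (.O1 k) trivial, hu hne (.O1 k) trivial]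
    rfl

end Vale.Agent.P196.Full.Tiles
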