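import Vale.Agent.P196.Full.Tiles.Equations.Scans
import Vale.Agent.P196.Full.Tiles.Equations.Values

/-!
# P196: the bits outside the central block
-/

namespace Vale.Agent.P196.Full.Tiles

variable {F : (Sg → Bool) → Bool} {M : ℕ} {T : Tile} {i j : ℕ}

theorem upper_child (hM : 4 * K ≤ M) (hT : GeomOK M T) (hi : i = M) (hjK : M + K ≤ j)
    (hj : j < 2 * M) : UpperEq (child F M T i j) := by
  have := K_large
  have htop : (child F M T i j).IsTop ↔ j + 1 = 2 * M :=
    (cellClass F T hM (by omega) hj).top
  generalize hx : j + 1 - (M + K) = x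
  have ev : (child F M T i j).valMark = fun s => decide ((T.gs s).val = some x) := by
    funext s
    simp only [Tile.valMark, child]
    fin_cases s <;> simp [Tile.gs, fillH, show M + K ≤ j + 1 by omega, hx,
      show i ≤ M by omega, show ¬i + 1 ≤ M by omega, show M < i + 1 by omega,
      show i + 1 ≤ j by omega] <;> exact decide_eq_decide.mpr Iff.rfl
  have eu : ∀ l, fillV F M T i (j + 1) (.S l) =
      scanBit (fun s => (T.gs s).val) (M - K) (x + 1) l := by
    intro l
    by_cases h : j + 1 = 2 * M
    · rw [scanBit_eq_false (fun s w hw => by have := hT.val_le s w hw; omega) (by omega)]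
      simp only [fillV, show ¬(i = M ∧ M < j + 1 + K ∧ j + 1 < 2 * M) by omega, decide_false,
        Bool.false_and]
    · simp only [fillV, show i = M ∧ M < j + 1 + K ∧ j + 1 < 2 * M by omega, decide_true,
        Bool.true_and, show j + 1 + 1 - (M + K) = x + 1 by omega, and_self]
  refine ⟨?_, ?_, ?_, ?_, ?_, ?_⟩
  · intro h h1 h2 h3
    dsimp only [child]
    cases h <;> simp [fillH, show ¬j < M + K by omega] at h1 h2 h3 ⊢
  · dsimp only [child]
    simp [fillH, show ¬M < i by omega]
  · dsimp only [child]
    simp [fillV, show ¬M + K ≤ i + 1 by omega]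
  · intro h hS hB
    rw [htop] at hB
    dsimp only [child]
    cases h with
    | Bus =>
      have := hB rfl
      simp [fillV, show M < j + K by omega, show M < j + 1 + K by omega, hj,
        show j + 1 < 2 * M by omega]
    | S k => exact absurd rfl (hS k)
    | Mk => simp [fillV, show ¬M + K ≤ i + 1 by omega]
    | _ => simp [fillV, show ¬j < M + K by omega, show ¬j + 1 < M + K by omega,
        show ¬j + 1 ≤ M + K by omega, show ¬j + 1 + 1 ≤ M + K by omega]
  · intro top ht k
    rw [htop] at ht
    have ed : fillV F M T i j (.S k) = scanBit (fun s => (T.gs s).val) (M - K) x k := by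
      simp [fillV, hi, hx, hj, show M < j + K by omega]
    rw [ev]
    dsimp only [child]
    simp only [eu]
    rw [ed, scanBit_step, decide_eq_false (show ¬x = 0 by omega)]
    have et : decide (x = M - K) = top := by
      rw [Bool.eq_iff_iff, decide_eq_true_eq, ht]
      omega
    rw [et]
  · rw [ev]
    dsimp only [child]
    simp only [eu]
    exact scanOnce_scanBit hT.val_near

theorem lower_child (hi : i = M) (hjK : j + K < M) (h : HL) :
    (child F M T i j).l.bit h = false ∧ (child F M T i j).r.bit h = false := by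
  have := K_large
  dsimp only [child]
  cases h <;> simp [fillH, show ¬M ≤ j + K by omega, show ¬M + K ≤ j + 1 by omega]

theorem corner_child (hM : 4 * K ≤ M) (hij : i = j) (hiK : M + K ≤ i) :
    CornerEq (child F M T i j) := by
  have := K_large
  refine ⟨?_, ?_, ?_, ?_⟩
  · intro h h1 h2
    dsimp only [child]
    cases h with
    | MD => exact absurd rfl h1
    | MU => exact absurd rfl h2
    | Mk => simp [fillH, show ¬i ≤ M by omega, show ¬i + 1 ≤ M by omega]
    | _ => simp [fillH, show ¬j < M + K by omega]
  · dsimp only [child]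
    simp [fillH, fillV, hij, show M + K ≤ j + 1 by omega, show M < j by omega]
  · dsimp only [child]
    simp [fillH, fillV, hij, show M + K ≤ j + 1 by omega, show M < j by omega]
  · intro h h1
    dsimp only [child]
    cases h with
    | Mk => exact absurd rfl h1
    | S k => simp [fillV, show i ≠ M by omega]
    | _ => simp [fillV, show ¬i < M + K by omega]

theorem cornerTL_child (hiK : i + K < M) (h : VL) :
    (child F M T i j).d.bit h = false ∧ (child F M T i j).u.bit h = false := by
  have := K_large
  dsimp only [child]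
  cases h <;> simp [fillV, show ¬M ≤ i + K by omega, show ¬M + K ≤ i + 1 by omega,
    show i ≠ M by omega]

theorem straightH_child (hM : 4 * K ≤ M)
    (hc : ¬(M ≤ i + K ∧ i < M + K ∧ M ≤ j + K ∧ j < M + K))
    (hup : ¬(i = M ∧ M + K ≤ j)) (htr : ¬(i = j ∧ M + K ≤ i)) (h : HL) :
    (child F M T i j).r.bit h = (child F M T i j).l.bit h := by
  have := K_large
  have e1 : M + K ≤ j + 1 → decide (i + 1 ≤ M) = decide (i ≤ M) := fun _ =>
    decide_eq_decide.mpr (by omega)
  have e2 : M + K ≤ j + 1 → decide (M < i + 1 ∧ i + 1 ≤ j) = decide (M < i ∧ i ≤ j) := fun _ =>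
    decide_eq_decide.mpr (by omega)
  have e3 : M ≤ j + K ∧ j < M + K → decide (i + 1 + 1 ≤ M + K) = decide (i + 1 ≤ M + K) := fun _ =>
    decide_eq_decide.mpr (by omega)
  have e4 : M ≤ j + K ∧ j < M + K →
      decide (M < i + 1 + K ∧ i + 1 < M + K) = decide (M < i + K ∧ i < M + K) := fun _ =>
    decide_eq_decide.mpr (by omega)
  dsimp only [child]
  cases h with
  | Mk =>
    simp only [fillH]
    by_cases hh : M + K ≤ j + 1
    · simp [hh, show i + 1 ≤ M ↔ i ≤ M from decide_eq_decide.mp (e1 hh)]
    · simp [hh]
  | MD =>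
    simp only [fillH]
    by_cases hh : M + K ≤ j + 1
    · rw [e2 hh]
    · simp [hh]
  | MU =>
    simp only [fillH]
    by_cases hh : M + K ≤ j + 1
    · rw [e2 hh]
    · simp [hh]
  | _ =>
    simp only [fillH]
    by_cases hh : M ≤ j + K ∧ j < M + K
    · simp only [e3 hh, e4 hh]
    · simp [hh]

theorem straightV_child (hM : 4 * K ≤ M) (hj : j < 2 * M)
    (hc : ¬(M ≤ i + K ∧ i < M + K ∧ M ≤ j + K ∧ j < M + K))
    (hup : ¬(i = M ∧ M + K ≤ j)) (htr : ¬(i = j ∧ M + K ≤ i)) (h : VL)
    (hB : h = VL.Bus → j + 1 ≠ 2 * M) :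
    (child F M T i j).u.bit h = (child F M T i j).d.bit h := by
  have := K_large
  have e1 : M ≤ i + K ∧ i < M + K → decide (j + 1 + 1 ≤ M + K) = decide (j + 1 ≤ M + K) := fun _ =>
    decide_eq_decide.mpr (by omega)
  have e2 : M ≤ i + K ∧ i < M + K →
      decide (M < j + 1 + K ∧ j + 1 < M + K) = decide (M < j + K ∧ j < M + K) := fun _ =>
    decide_eq_decide.mpr (by omega)
  dsimp only [child]
  cases h with
  | Bus =>
    simp only [fillV]
    have := hB rfl
    by_cases hh : M ≤ i + K ∧ i < M + K
    · by_cases hjM : j + K < M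
      · simp [show ¬M < j + 1 + K by omega, show ¬M < j + K by omega]
      · simp [hh, hj, show M < j + 1 + K by omega, show M < j + K by omega,
          show j + 1 < 2 * M by omega]
    · simp [hh]
  | Mk =>
    simp only [fillV]
    by_cases hh : M + K ≤ i + 1
    · simp [hh, show j + 1 ≤ i ↔ j ≤ i by omega]
    · simp [hh]
  | S k =>
    simp only [fillV]
    by_cases hh : i = M
    · simp [show ¬M < j + 1 + K by omega, show ¬M < j + K by omega]
    · simp [hh]
  | _ =>
    simp only [fillV]
    by_cases hh : M ≤ i + K ∧ i < M + K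
    · have hn : decide (M < j + K ∧ j < M + K) = false := decide_eq_false (by omega)
      simp only [e1 hh, e2 hh, hn, Bool.and_false, Bool.false_and]
    · simp [hh]

theorem top_child (hjM : j + 1 = 2 * M) :
    (child F M T i j).u.bit .Bus = false ∧ ∀ k, (child F M T i j).u.bit (.S k) = false := by
  dsimp only [child]
  exact ⟨by simp [fillV, hjM], fun k => by simp [fillV, hjM]⟩

end Vale.Agent.P196.Full.Tiles
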