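import Vale.Agent.P196.Full.Tiles.Equations.BlockH
import Vale.Agent.P196.Full.Tiles.Equations.BlockV
import Vale.Agent.P196.Full.Tiles.Equations.Outside

/-!
# P196: every child satisfies the local equations; blocks of matching parents match; the seed
-/

namespace Vale.Agent.P196.Full.Tiles

variable {F : (Sg → Bool) → Bool} {M : ℕ} {T : Tile} {i j : ℕ}

/-- The children satisfy the local equations. -/
theorem localEq_child (hM : 4 * K ≤ M) (hT : GeomOK M T) (hF : F (sig F M T) = false)
    (hi : i < 2 * M) (hj : j < 2 * M) : LocalEq F (child F M T i j) := by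
  have cc := cellClass F T hM hi hj
  refine ⟨?_, ?_, ?_, ?_, ?_, ?_, ?_, ?_, ?_⟩
  · intro a b h
    have := (cc.cell a b).mp h
    exact blockH_child hM hT (by omega) (by omega) (by omega) (by omega)
  · intro a b h
    have := (cc.cell a b).mp h
    exact blockV_child hM hT hF (by omega) (by omega) (by omega) (by omega)
  · intro h
    obtain ⟨h1, h2⟩ := cc.upper.mp h
    exact upper_child hM hT h1 h2 hj
  · intro h
    obtain ⟨h1, h2⟩ := cc.lower.mp h
    exact lower_child h1 h2
  · intro h
    obtain ⟨h1, h2⟩ := cc.tr.mp h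
    exact corner_child hM h1 h2
  · intro h
    exact cornerTL_child (cc.tl.mp h).2
  · intro hn hu ht
    refine straightH_child hM (fun hc => ?_) (fun h => hu (cc.upper.mpr h))
      (fun h => ht (cc.tr.mpr h))
    have e := (cc.cell (i + K - M) (j + K - M)).mpr ⟨hc.1, hc.2.1, hc.2.2.1, hc.2.2.2, rfl, rfl⟩
    simp [hn] at e
  · intro hn hu ht h hB
    refine straightV_child hM hj (fun hc => ?_) (fun h => hu (cc.upper.mpr h))
      (fun h => ht (cc.tr.mpr h)) h (fun e he => hB e (cc.top.mpr he))
    have e := (cc.cell (i + K - M) (j + K - M)).mpr ⟨hc.1, hc.2.1, hc.2.2.1, hc.2.2.2, rfl, rfl⟩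
    simp [hn] at e
  · intro h
    exact top_child (cc.top.mp h)

/-- The children of a tile of the next level satisfy the local equations. -/
theorem localEq_of_hasGeom {s : ℕ} (hT : HasGeom (s + 1) T) (hF : F (sig F (lvl s) T) = false)
    (hi : i < 2 * lvl s) (hj : j < 2 * lvl s) : LocalEq F (child F (lvl s) T i j) :=
  localEq_child (lvl_ge s) (geomOK_of_hasGeom hT) hF hi hj

/-- Blocks of parents with the same colour on a vertical side match along it. -/
theorem cross_h {T T' : Tile} (hM : 4 * K ≤ M) (e : T.r = T'.l) (hj : j < 2 * M) :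
    (child F M T (2 * M - 1) j).r = (child F M T' 0 j).l := by
  have := K_large
  have hs : ∀ b, shown T 1 b = shown T' 0 b := fun b => by simp [shown, Tile.sideBit, e]
  simp only [child, show 2 * M - 1 + 1 = 2 * M by omega, Col.mk.injEq]
  refine ⟨by simp [geoH], funext fun h => ?_⟩
  cases h <;> simp [fillH, hs, e, show ¬2 * M + 1 ≤ M + K by omega, show ¬2 * M < M + K by omega,
    show ¬2 * M ≤ M by omega, show 0 + 1 ≤ M + K by omega, show ¬M < 0 + K by omega,
    show ¬(M < 0) by omega,
    show ¬2 * M ≤ j by omega, show ¬M < K by omega]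

/-- Blocks of parents with the same colour on a horizontal side match along it. -/
theorem cross_v {T T' : Tile} (hM : 4 * K ≤ M) (e : T.u = T'.d) (hi : i < 2 * M) :
    (child F M T i (2 * M - 1)).u = (child F M T' i 0).d := by
  have := K_large
  have hs : ∀ b, shown T 3 b = shown T' 2 b := fun b => by simp [shown, Tile.sideBit, e]
  simp only [child, show 2 * M - 1 + 1 = 2 * M by omega, Col.mk.injEq]
  refine ⟨by simp [geoV, geoH], funext fun h => ?_⟩
  cases h <;> simp [fillV, hs, e, show ¬2 * M + 1 ≤ M + K by omega, show ¬2 * M < M + K by omega,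
    show ¬2 * M ≤ i by omega, show 0 + 1 ≤ M + K by omega, show ¬M < K by omega]

theorem crossGoal : CrossGoal := fun s _ _ _ _ =>
  ⟨fun e _ hj => cross_h (lvl_ge s) e hj, fun e _ hi => cross_v (lvl_ge s) e hi⟩

/-- The seed is a child of every tile. -/
theorem child_seed (hM : 4 * K ≤ M) (T : Tile) : child F M T 5 5 = seed M := by
  have := K_large
  have hh : ∀ x, x ≤ 6 → fillH F M T x 5 = fun _ => false := by
    intro x hx
    funext h
    cases h <;> simp [fillH, show ¬M ≤ 5 + K by omega, show ¬M + K ≤ 6 by omega]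
  have hv : ∀ y, y ≤ 6 → fillV F M T 5 y = fun _ => false := by
    intro y hy
    funext h
    cases h <;> simp [fillV, show ¬M ≤ 5 + K by omega, show ¬M + K ≤ 6 by omega,
      show 5 ≠ M by omega]
  simp only [child, seed, Nat.reduceAdd, hh 5 (by omega), hh 6 (by omega), hv 5 (by omega),
    hv 6 (by omega)]

theorem seedGoal : SeedGoal := fun s T _ => child_seed (lvl_ge s) T

end Vale.Agent.P196.Full.Tiles
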