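import Vale.Agent.P196.Full.Tiles.Equations.Basics

/-!
# P196: the geometric colours of the cells of a block determine their classes
-/

namespace Vale.Agent.P196.Full.Tiles

variable {M i j : ℕ}

lemma geoH_outer_iff :
    (∃ k, geoH M i j = .outer k) ↔ i = 0 ∨ i = 2 * M := by
  constructor
  · rintro ⟨k, h⟩
    unfold geoH at h
    split_ifs at h
    all_goals assumption
  · intro h
    exact ⟨_, if_pos h⟩

lemma geoH_tag_iff (hM : K < M) (a b : ℕ) :
    geoH M i j = .tag a b ↔
      M ≤ i + K ∧ i ≤ M + K ∧ M ≤ j + K ∧ j < M + K ∧ a = i + K - M ∧ b = j + K - M := by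
  unfold geoH
  constructor
  · intro h
    split_ifs at h with h0 h1
    simp only [GCol.tag.injEq] at h
    exact ⟨h1.1, h1.2.1, h1.2.2.1, h1.2.2.2, h.1.symm, h.2.symm⟩
  · rintro ⟨h1, h2, h3, h4, rfl, rfl⟩
    rw [if_neg (by omega), if_pos ⟨h1, h2, h3, h4⟩]

lemma geoH_side_iff (hi : i ≤ 2 * M) (hj : j < 2 * M) (z : Fin 4) (hb : Bool) (v : ℕ) :
    geoH M i j = .side z hb v ↔
      (0 < i ∧ i < 2 * M ∧ ¬(M ≤ i + K ∧ i ≤ M + K ∧ M ≤ j + K ∧ j < M + K)) ∧
      ((z = 0 ∧ j < i ∧ i + j < 2 * M ∧ j < M ∧ (hb = true ↔ M < i) ∧ v = j) ∨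
       (z = 1 ∧ 2 * M ≤ i + j ∧ i ≤ j ∧ (hb = true ↔ M < i) ∧ v = 2 * M - 1 - j) ∨
       (z = 2 ∧ i < M ∧ i ≤ j ∧ i + j < 2 * M ∧ (hb = true ↔ M ≤ j) ∧ v = i) ∨
       (z = 3 ∧ M ≤ i ∧ 2 * M ≤ i + j ∧ j < i ∧ (hb = true ↔ M ≤ j) ∧ v = 2 * M - i)) := by
  have := K_large
  unfold geoH
  constructor
  · intro h
    split_ifs at h <;>
      simp only [GCol.side.injEq] at h <;>
      obtain ⟨rfl, rfl, rfl⟩ := h <;>
      simp only [decide_eq_true_eq, Fin.reduceEq, true_and, false_and, false_or, or_false, and_true, iff_self] <;>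
      omega
  · rintro ⟨⟨h1, h2, h3⟩, h | h | h | h⟩ <;>
      obtain ⟨rfl, h⟩ := h <;>
      rw [if_neg (by omega), if_neg h3] <;>
      split_ifs <;>
      simp only [GCol.side.injEq, Fin.reduceEq, true_and, false_and] <;>
      first
        | omega
        | refine ⟨?_, by omega⟩
          cases hb <;> simp at h ⊢ <;> omega

lemma GCol.tr_eq_side (g : GCol) (z : Fin 4) (hb : Bool) (v : ℕ) :
    g.tr = .side z hb v ↔ g = .side (trZone z) hb v := by
  have e : ∀ y : Fin 4, trZone (trZone y) = y := by decide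
  cases g with
  | outer k => simp [GCol.tr]
  | tag a b => simp [GCol.tr]
  | side y h w =>
    simp only [GCol.tr, GCol.side.injEq]
    exact ⟨fun ⟨h1, h2⟩ => ⟨by rw [← h1, e], h2⟩, fun ⟨h1, h2⟩ => ⟨by rw [h1, e], h2⟩⟩

lemma GCol.tr_eq_tag (g : GCol) (a b : ℕ) : g.tr = .tag a b ↔ g = .tag b a := by
  cases g <;> simp [GCol.tr, and_comm]

lemma GCol.tr_eq_outer (g : GCol) (k : Fin 4) : g.tr = .outer k ↔ g = .outer k := by
  cases g <;> simp [GCol.tr]

lemma trZone_one : trZone 1 = 3 ∧ trZone 3 = 1 ∧ trZone 2 = 0 ∧ trZone 0 = 2 := by decide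

variable (f : (Sg → Bool) → Bool) (T : Tile)

/-- The classes of the children. -/
theorem cellClass (hM : 4 * K ≤ M) (hi : i < 2 * M) (hj : j < 2 * M) :
    CellClass (child f M T i j) M i j := by
  have := K_large
  have hK : K < M := by omega
  refine ⟨?_, ?_, ?_, ?_, ?_, fun a b => ?_⟩
  · simp only [Tile.IsUpper, child, geoH_side_iff (show i ≤ 2 * M by omega) hj,
      geoH_side_iff (show i + 1 ≤ 2 * M by omega) hj]
    simp only [Fin.reduceEq, true_and, false_and, false_or, or_false, eq_self,
      true_iff, Bool.false_eq_true, false_iff]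
    exact ⟨fun ⟨v, h1, h2⟩ => by omega, fun h => ⟨2 * M - 1 - j, by omega, by omega⟩⟩
  · simp only [Tile.IsLower, child, geoH_side_iff (show i ≤ 2 * M by omega) hj,
      geoH_side_iff (show i + 1 ≤ 2 * M by omega) hj]
    simp only [Fin.reduceEq, true_and, false_and, or_false, eq_self,
      true_iff, Bool.false_eq_true, false_iff]
    exact ⟨fun ⟨v, h1, h2⟩ => by omega, fun h => ⟨j, by omega, by omega⟩⟩
  · simp only [Tile.IsTR, child, geoV, GCol.tr_eq_side, trZone_one,
      geoH_side_iff (show i ≤ 2 * M by omega) hj, geoH_side_iff (show j ≤ 2 * M by omega) hi]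
    simp only [Fin.reduceEq, true_and, false_and, false_or, or_false, eq_self, true_iff]
    exact ⟨fun ⟨v, h1, h2⟩ => by omega, fun h => ⟨2 * M - 1 - j, by omega, by omega⟩⟩
  · simp only [Tile.IsTL, child, geoV, GCol.tr_eq_side, trZone_one,
      geoH_side_iff (show i + 1 ≤ 2 * M by omega) hj, geoH_side_iff (show j ≤ 2 * M by omega) hi]
    simp only [Fin.reduceEq, true_and, false_and, false_or, or_false, eq_self,
      true_iff, Bool.false_eq_true, false_iff]
    exact ⟨fun ⟨v, h1, h2⟩ => by omega, fun h => ⟨i, by omega, by omega⟩⟩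
  · simp only [Tile.IsTop, child, geoV, GCol.tr_eq_outer, geoH_outer_iff]
    omega
  · simp only [Tile.tagCell, child]
    cases hg : geoH M i j with
    | tag x y =>
      have := (geoH_tag_iff hK x y).mp hg
      simp only [Option.ite_none_right_eq_some, Option.some.injEq, Prod.mk.injEq]
      omega
    | outer k =>
      simp only [reduceCtorEq, false_iff]
      intro h
      have := (geoH_tag_iff (i := i) (j := j) hK a b).mpr (by omega)
      rw [hg] at this
      simp at this
    | side z h v =>
      simp only [reduceCtorEq, false_iff]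
      intro h'
      have := (geoH_tag_iff (i := i) (j := j) hK a b).mpr (by omega)
      rw [hg] at this
      simp at this

/-- The colours of a cell of level `s + 1` seen by the equations of its children. -/
structure GeomOK (M : ℕ) (T : Tile) : Prop where
  val_le : ∀ s w, (T.gs s).val = some w → w ≤ M - K
  val_near : ∀ s s' w w', (T.gs s).val = some w → (T.gs s').val = some w' → w ≤ w' + 1
  coord_near : ∀ (c : Fin 2) s s' w w', (T.gs s).coord c = some w → (T.gs s').coord c = some w' →
    w ≤ w' + 1
  crossing : ∀ a b, T.tagCell = some (a, b) ↔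
    a < 2 * K ∧ b < 2 * K ∧ T.d.g.tagA = some a ∧ T.l.g.tagB = some b

lemma geoH_val_le (hM : 4 * K ≤ M) (hi : i ≤ 2 * M) (hj : j < 2 * M) {w : ℕ}
    (h : (geoH M i j).val = some w) : w + K + 1 ≤ M := by
  have := K_large
  cases hg : geoH M i j with
  | side z hb v =>
    rw [hg] at h
    obtain rfl : v = w := Option.some.inj h
    have := (geoH_side_iff hi hj z hb v).mp hg
    omega
  | _ => rw [hg] at h; simp [GCol.val] at h

/-- A value is the distance to the border of the block. -/
lemma geoH_val_eq (hi : i ≤ 2 * M) (hj : j < 2 * M) {w : ℕ} (h : (geoH M i j).val = some w) :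
    w = min (min i (2 * M - i)) (min j (2 * M - 1 - j)) := by
  cases hg : geoH M i j with
  | side z hb v =>
    rw [hg] at h
    obtain rfl : v = w := Option.some.inj h
    have := (geoH_side_iff hi hj z hb v).mp hg
    omega
  | _ => rw [hg] at h; simp [GCol.val] at h

lemma GCol.tr_val (g : GCol) : g.tr.val = g.val := by cases g <;> rfl

lemma GCol.tr_tagA (g : GCol) : g.tr.tagA = g.tagB := by cases g <;> rfl

lemma GCol.tr_tagB (g : GCol) : g.tr.tagB = g.tagA := by cases g <;> rfl

lemma geoH_tagA (hM : K < M) {x : ℕ} (h : (geoH M i j).tagA = some x) :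
    M ≤ i + K ∧ x = i + K - M := by
  cases hg : geoH M i j with
  | tag a b =>
    rw [hg] at h
    obtain rfl : a = x := Option.some.inj h
    have := (geoH_tag_iff hM a b).mp hg
    omega
  | _ => rw [hg] at h; simp [GCol.tagA] at h

lemma geoH_tagB (hM : K < M) {x : ℕ} (h : (geoH M i j).tagB = some x) :
    M ≤ j + K ∧ x = j + K - M := by
  cases hg : geoH M i j with
  | tag a b =>
    rw [hg] at h
    obtain rfl : b = x := Option.some.inj h
    have := (geoH_tag_iff hM a b).mp hg
    omega
  | _ => rw [hg] at h; simp [GCol.tagB] at h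

lemma GCol.tagA_eq_some (g : GCol) (a : ℕ) : g.tagA = some a ↔ ∃ b, g = .tag a b := by
  cases g <;> simp [GCol.tagA]

lemma GCol.tagB_eq_some (g : GCol) (b : ℕ) : g.tagB = some b ↔ ∃ a, g = .tag a b := by
  cases g <;> simp [GCol.tagB]

/-- Cells of the next level have the geometry required by the equations of their children. -/
theorem geomOK_of_hasGeom {s : ℕ} {T : Tile} (h : HasGeom (s + 1) T) : GeomOK (lvl s) T := by
  obtain ⟨i, j, hi, hj, hl, hr, hd, hu⟩ := h
  have := K_large
  have hM := lvl_ge (s + 1)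
  have e : lvl (s + 1) = lvl s + 1 := by unfold lvl; omega
  have hK : K < lvl (s + 1) := by omega
  refine ⟨fun k w hk => ?_, ?_, ?_, fun a b => ?_⟩
  · fin_cases k <;> simp only [Tile.gs, Matrix.cons_val_zero, Matrix.cons_val_one,
      Matrix.cons_val_two, Matrix.cons_val_three, Matrix.head_cons, Matrix.tail_cons,
      Fin.mk_zero, Fin.mk_one, Fin.reduceFinMk, hl, hr, hd, hu, geoV, GCol.tr_val] at hk
    · have := geoH_val_le hM (by omega) (by omega) hk; omega
    · have := geoH_val_le hM (by omega) (by omega) hk; omega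
    · have := geoH_val_le hM (by omega) (by omega) hk; omega
    · have := geoH_val_le hM (by omega) (by omega) hk; omega
  · have near : ∀ k w, (T.gs k).val = some w →
        min (min i (2 * lvl (s + 1) - 1 - i)) (min j (2 * lvl (s + 1) - 1 - j)) ≤ w ∧
        w ≤ min (min i (2 * lvl (s + 1) - 1 - i)) (min j (2 * lvl (s + 1) - 1 - j)) + 1 := by
      intro k w hk
      fin_cases k <;> simp only [Tile.gs, Matrix.cons_val_zero, Matrix.cons_val_one,
        Matrix.cons_val_two, Matrix.cons_val_three, Matrix.head_cons, Matrix.tail_cons,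
        Fin.mk_zero, Fin.mk_one, Fin.reduceFinMk, hl, hr, hd, hu, geoV, GCol.tr_val] at hk
      · have := geoH_val_eq (by omega) (by omega) hk; omega
      · have := geoH_val_eq (by omega) (by omega) hk; omega
      · have := geoH_val_eq (by omega) (by omega) hk; omega
      · have := geoH_val_eq (by omega) (by omega) hk; omega
    intro k k' w w' h h'
    have := near k w h
    have := near k' w' h'
    omega
  · have near : ∀ (c : Fin 2) k w, (T.gs k).coord c = some w →
        (if c = 0 then i else j) + K - lvl (s + 1) ≤ w ∧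
        w ≤ (if c = 0 then i else j) + K - lvl (s + 1) + 1 := by
      intro c k w hk
      have hk' : (if c = 0 then (T.gs k).tagA else (T.gs k).tagB) = some w := by
        simp [GCol.coord, Option.filter_eq_some_iff] at hk
        exact hk.1
      fin_cases c
      · fin_cases k <;> simp only [Tile.gs, Matrix.cons_val_zero, Matrix.cons_val_one,
          Matrix.cons_val_two, Matrix.cons_val_three, Matrix.head_cons, Matrix.tail_cons,
          Fin.mk_zero, Fin.mk_one, Fin.reduceFinMk, Fin.reduceEq, if_true, if_false, hl, hr, hd, hu,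
          geoV, GCol.tr_tagA, GCol.tr_tagB] at hk' ⊢
        · have := geoH_tagA hK hk'; omega
        · have := geoH_tagA hK hk'; omega
        · have := geoH_tagB hK hk'; omega
        · have := geoH_tagB hK hk'; omega
      · fin_cases k <;> simp only [Tile.gs, Matrix.cons_val_zero, Matrix.cons_val_one,
          Matrix.cons_val_two, Matrix.cons_val_three, Matrix.head_cons, Matrix.tail_cons,
          Fin.mk_zero, Fin.mk_one, Fin.reduceFinMk, Fin.reduceEq, if_true, if_false, hl, hr, hd, hu,
          geoV, GCol.tr_tagA, GCol.tr_tagB] at hk' ⊢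
        · have := geoH_tagB hK hk'; omega
        · have := geoH_tagB hK hk'; omega
        · have := geoH_tagA hK hk'; omega
        · have := geoH_tagA hK hk'; omega
    intro c k k' w w' h h'
    have := near c k w h
    have := near c k' w' h'
    omega
  · have hc : T.tagCell = some (a, b) ↔ geoH (lvl (s + 1)) i j = .tag a b ∧ a < 2 * K ∧ b < 2 * K := by
      simp only [Tile.tagCell, hl]
      cases hg : geoH (lvl (s + 1)) i j with
      | tag x y =>
        simp only [Option.ite_none_right_eq_some, Option.some.injEq, Prod.mk.injEq, GCol.tag.injEq]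
        omega
      | _ => simp
    rw [hc, hl, hd, geoV, GCol.tr_tagA, GCol.tagB_eq_some, GCol.tagB_eq_some]
    simp only [geoH_tag_iff hK]
    constructor
    · rintro ⟨h, ha, hb⟩
      exact ⟨ha, hb, ⟨j + K - lvl (s + 1), by omega⟩, a, by omega⟩
    · rintro ⟨ha, hb, ⟨a', h1⟩, ⟨b', h2⟩⟩
      omega

end Vale.Agent.P196.Full.Tiles
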