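import Vale.Agent.P196.Full.Tiles.Defs

/-!
# P196: the local equations of a tile

`LocalEq F T` speaks only of the tile itself, of the fixed number `K` and of the table `F` of
forbidden patterns: the class of the tile is read from its geometric colours.
-/

namespace Vale.Agent.P196.Full.Tiles

/-- A cell of the switch column above the block. -/
def Tile.IsUpper (T : Tile) : Prop :=
  ∃ v, T.l.g = .side 1 false v ∧ T.r.g = .side 1 true v

/-- A cell of the switch column below the block. -/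
def Tile.IsLower (T : Tile) : Prop :=
  ∃ v, T.l.g = .side 0 false v ∧ T.r.g = .side 0 true v

/-- A top right corner outside the block. -/
def Tile.IsTR (T : Tile) : Prop :=
  ∃ v, T.l.g = .side 1 true v ∧ T.d.g = .side 3 true v

/-- A top left corner outside the block. -/
def Tile.IsTL (T : Tile) : Prop :=
  ∃ v, T.r.g = .side 1 false v ∧ T.d.g = .side 2 true v

/-- A cell on the top side of its block. -/
def Tile.IsTop (T : Tile) : Prop := ∃ k, T.u.g = .outer k

/-- The value of an inner horizontal layer at column `a` of the central block. -/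
def Tile.hin (T : Tile) (a : ℕ) (h : HL) : Bool := if a = 0 then T.r.bit h else T.l.bit h

/-- The value of an inner vertical layer at row `b` of the central block. -/
def Tile.vin (T : Tile) (b : ℕ) (h : VL) : Bool := if b = 0 then T.u.bit h else T.d.bit h

/-- The markers of the four sides at one value. -/
def Tile.valMark (T : Tile) : Fin 4 → Bool :=
  ![T.l.bit .Mk, T.r.bit .Mk, T.r.bit .MD, T.r.bit .MU]

/-- The markers of the four sides in one row of the block, for a tag coordinate. -/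
def Tile.tagMark (T : Tile) (a : ℕ) (c : Fin 2) : Fin 4 → Bool :=
  if c = 0 then ![T.l.bit .A, T.hin a .AR, T.hin a .AD, T.hin a .AU]
  else ![T.l.bit .B, T.hin a .BR, T.hin a .BD, T.hin a .BU]

/-- One step of a scan of the tag coordinates, from above. -/
def coordStep (mk : Fin 4 → Bool) (u : Fin 9 → Bool) (i : Fin 9) : Bool :=
  if h : (i : ℕ) < 4 then u i || mk ⟨i, h⟩
  else if h : (i : ℕ) < 8 then
    u i || (mk ⟨i - 4, by omega⟩ && decide (∃ s : Fin 4, u ⟨s, by omega⟩ = true))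
  else decide (∃ s, mk s = true)

/-- One step of the scan of the values, from above; `bot` says that the value is `0` and `top`
that it is the largest one. -/
def scanStep (bot top : Bool) (mk : Fin 4 → Bool) (u : Fin 17 → Bool) (i : Fin 17) : Bool :=
  if h : (i : ℕ) < 4 then u i || mk ⟨i, h⟩
  else if h : (i : ℕ) < 8 then
    u i || (mk ⟨i - 4, by omega⟩ && decide (∃ s : Fin 4, u ⟨s, by omega⟩ = true))
  else if h : (i : ℕ) < 12 then bot && mk ⟨i - 8, by omega⟩
  else if h : (i : ℕ) < 16 then u i || (top && mk ⟨i - 12, by omega⟩)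
  else decide (∃ s, mk s = true)

/-- Above a marker at most one further value is seen: it is the next one, and nothing is late. -/
def ScanOnce (mk : Fin 4 → Bool) (u : Fin 17 → Bool) : Prop :=
  ∀ k s : Fin 4, mk k = true → u ⟨s, by omega⟩ = true →
    u 16 = true ∧ u ⟨k, by omega⟩ = false ∧ ∀ t : Fin 4, u ⟨4 + t, by omega⟩ = false

/-- Above a marker at most one further coordinate is seen: it is the next one, and nothing is
late. -/
def CoordOnce (mk : Fin 4 → Bool) (u : Fin 9 → Bool) : Prop :=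
  ∀ k s : Fin 4, mk k = true → u ⟨s, by omega⟩ = true →
    u 8 = true ∧ u ⟨k, by omega⟩ = false ∧ ∀ t : Fin 4, u ⟨4 + t, by omega⟩ = false

/-- The layers of the block which do not leave it. -/
def HL.IsInner : HL → Prop
  | .AR | .AD | .AU | .BR | .BD | .BU | .P | .O _ => True
  | _ => False

/-- The layers of the block columns which do not leave it. -/
def VL.IsInner : VL → Prop
  | .CT | .AT | .BT | .Qm | .U _ _ | .Uk _ _ _ | .O _ | .O1 _ => True
  | _ => False

/-- The left and right bits of the block cell `(a, b)`. -/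
structure BlockH (F : (Sg → Bool) → Bool) (a b : ℕ) (T : Tile) : Prop where
  through : a + 1 ≠ 2 * K → ∀ h, h = HL.C ∨ h = HL.A ∨ h = HL.B → T.r.bit h = T.l.bit h
  c_zero : (∀ t k, b ≠ cPos t k) → T.l.bit .C = false ∧ T.r.bit .C = false
  marks_zero : b + 1 ≠ 2 * K → ∀ h, h = HL.Mk ∨ h = HL.MD ∨ h = HL.MU →
    T.l.bit h = false ∧ T.r.bit h = false
  mk_through : a ≠ K → T.r.bit .Mk = T.l.bit .Mk
  md_left : a ≤ K → T.l.bit .MD = false ∧ T.l.bit .MU = false
  md_low : a < K → T.r.bit .MD = false ∧ T.r.bit .MU = false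
  md_through : K < a → a + 1 ≠ 2 * K →
    T.r.bit .MD = T.l.bit .MD ∧ T.r.bit .MU = T.l.bit .MU
  md_turn : a + 1 = 2 * K → T.r.bit .MD = false ∧ T.r.bit .MU = false ∧
    (b + 1 = 2 * K → T.l.bit .MD = T.d.bit .Mk ∧ T.l.bit .MU = T.u.bit .Mk)
  inner_left : a = 0 → ∀ h : HL, h.IsInner → T.l.bit h = false
  inner_through : a ≠ 0 → a + 1 ≠ 2 * K → ∀ h : HL, h.IsInner → T.r.bit h = T.l.bit h
  inner_right : a + 1 = 2 * K → ∀ h : HL, h.IsInner → T.r.bit h = false
  right_values : a + 1 = 2 * K → T.l.bit .AR = T.r.bit .A ∧ T.l.bit .BR = T.r.bit .B ∧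
    ((∀ q, b ≠ sRow q) → T.l.bit .P = T.r.bit .C)
  diag : a = b → T.hin a .AD = T.d.bit .A ∧ T.hin a .BD = T.d.bit .B ∧
    T.hin a .AU = T.vin b .AT ∧ T.hin a .BU = T.vin b .BT
  lookup : T.l.bit .B = true → T.d.bit .A = true → ∀ k, T.hin a (.O k) = opBit F a b k
  lookup_none : T.l.bit .B = false → ∀ k, T.hin a (.O k) = false
  forbidden : T.hin a (.O 14) = true → T.hin a (.O 11) = true ∧ b + 1 = 2 * K
  port_bottom : ∀ t k, a = cPos t k → b = sRow (.side 2 t k) → T.hin a .P = T.d.bit .C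
  port_top : ∀ t k, a = cPos t k → b = sRow (.side 3 t k) → T.hin a .P = T.vin b .CT
  port_bus : ∀ q h k, a = sCol q h k → b = sRow q → T.vin b .Bus = T.hin a .P
  port_scan : a = K → ∀ k, b = sRow (.scan k) → T.hin a .P = T.vin b (.S k)
  port_coord : ∀ (c : Fin 2) p k, a = (c : ℕ) → b = sRow (.coord c p k) →
    T.hin a .P = T.vin b (.Uk c p k)
  port_op : a + 1 = 2 * K → ∀ k, b = sRow (.op k) → T.hin a .P = T.vin b (.O1 k)

/-- The bottom and top bits of the block cell `(a, b)`. -/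
structure BlockV (F : (Sg → Bool) → Bool) (a b : ℕ) (T : Tile) : Prop where
  through : b + 1 ≠ 2 * K → ∀ h, h = VL.C ∨ h = VL.A ∨ h = VL.B → T.u.bit h = T.d.bit h
  c_zero : (∀ t k, a ≠ cPos t k) → T.d.bit .C = false ∧ T.u.bit .C = false
  mk_zero : a + 1 ≠ 2 * K → T.d.bit .Mk = false ∧ T.u.bit .Mk = false
  mk_through : b + 1 ≠ 2 * K → T.u.bit .Mk = T.d.bit .Mk
  inner_bot : b = 0 → ∀ h : VL, h.IsInner → T.d.bit h = false
  inner_top : b + 1 = 2 * K → ∀ h : VL, h.IsInner → T.u.bit h = false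
  top_values : b + 1 = 2 * K →
    T.d.bit .CT = T.u.bit .C ∧ T.d.bit .AT = T.u.bit .A ∧ T.d.bit .BT = T.u.bit .B
  top_through : b ≠ 0 → b + 1 ≠ 2 * K → ∀ h, h = VL.CT ∨ h = VL.AT ∨ h = VL.BT →
    T.u.bit h = T.d.bit h
  bus_bot : b = 0 → T.d.bit .Bus = false
  bus_through : b ≠ 0 → T.u.bit .Bus = T.d.bit .Bus
  bus_zero : (∀ q h k, a ≠ sCol q h k) → T.d.bit .Bus = false ∧ T.u.bit .Bus = false
  bus_left : ∀ t k h k', a = sCol (.side 0 t k) h k' → b = cPos t k → T.vin b .Bus = T.l.bit .C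
  bus_right : ∀ t k h k', a = sCol (.side 1 t k) h k' → b = cPos t k →
    T.vin b .Bus = T.hin a .P
  qm_zero : usable a = false → T.d.bit .Qm = false ∧ T.u.bit .Qm = false
  qm_start : b = 0 → usable a = true → T.u.bit .Qm = true
  qm_pass : b ≠ 0 → b + 1 ≠ 2 * K → (∀ q, b ≠ sRow q) → T.u.bit .Qm = T.d.bit .Qm
  qm_test : ∀ q, b = sRow q → usable a = true →
    T.u.bit .Qm = (T.d.bit .Qm && decide (T.hin a .P = patOf a q))
  qm_final : b + 1 = 2 * K → usable a = true → F (patOf a) = true → T.d.bit .Qm = false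
  scan_off : a ≠ K → ∀ k, T.d.bit (.S k) = false ∧ T.u.bit (.S k) = false
  scan_bot : b = 0 → ∀ k, T.d.bit (.S k) = false
  scan_through : b ≠ 0 → b + 1 ≠ 2 * K → ∀ k, T.u.bit (.S k) = T.d.bit (.S k)
  scan_step : a = K → b + 1 = 2 * K → ∀ k,
    T.d.bit (.S k) = scanStep true false T.valMark (fun i => T.u.bit (.S i)) k
  coord_off : ∀ (c : Fin 2), a ≠ (c : ℕ) → ∀ i, T.d.bit (.U c i) = false ∧
    T.u.bit (.U c i) = false ∧ ∀ p, T.d.bit (.Uk c p i) = false ∧ T.u.bit (.Uk c p i) = false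
  coord_step : ∀ (c : Fin 2), a = (c : ℕ) → b ≠ 0 → ∀ i,
    T.d.bit (.U c i) = coordStep (T.tagMark a c) (fun i => T.u.bit (.U c i)) i
  coord_snap : ∀ (c : Fin 2) p, a = (c : ℕ) → b = snap p → ∀ i,
    T.vin b (.Uk c p i) = coordStep (T.tagMark a c) (fun i => T.u.bit (.U c i)) i
  coord_through : b ≠ 0 → b + 1 ≠ 2 * K → ∀ c p i, T.u.bit (.Uk c p i) = T.d.bit (.Uk c p i)
  scan_once : a = K → b + 1 = 2 * K → ScanOnce T.valMark (fun i => T.u.bit (.S i))
  coord_once : ∀ (c : Fin 2), a = (c : ℕ) → CoordOnce (T.tagMark a c) (fun i => T.u.bit (.U c i))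
  op_off : a + 1 ≠ 2 * K → ∀ k, T.d.bit (.O k) = false ∧ T.u.bit (.O k) = false ∧
    T.d.bit (.O1 k) = false ∧ T.u.bit (.O1 k) = false
  op_step : a + 1 = 2 * K → b ≠ 0 → ∀ k, T.d.bit (.O k) = (T.u.bit (.O k) || T.hin a (.O k))
  op_total : a + 1 = 2 * K → b = 0 → ∀ k, T.u.bit (.O1 k) = (T.u.bit (.O k) || T.hin a (.O k))
  op_through : b ≠ 0 → b + 1 ≠ 2 * K → ∀ k, T.u.bit (.O1 k) = T.d.bit (.O1 k)

/-- The bits of a cell of the switch column above the block. -/
structure UpperEq (T : Tile) : Prop where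
  h_zero : ∀ h, h ≠ HL.Mk → h ≠ HL.MD → h ≠ HL.MU → T.l.bit h = false ∧ T.r.bit h = false
  md_left : T.l.bit .MD = false ∧ T.l.bit .MU = false
  mk_zero : T.d.bit .Mk = false ∧ T.u.bit .Mk = false
  through : ∀ h, (∀ k, h ≠ VL.S k) → (h = VL.Bus → ¬ T.IsTop) → T.u.bit h = T.d.bit h
  step : ∀ top : Bool, (top = true ↔ T.IsTop) → ∀ k,
    T.d.bit (.S k) = scanStep false top T.valMark (fun i => T.u.bit (.S i)) k
  once : ScanOnce T.valMark (fun i => T.u.bit (.S i))

/-- The bits of a top right corner outside the block. -/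
structure CornerEq (T : Tile) : Prop where
  h_through : ∀ h, h ≠ HL.MD → h ≠ HL.MU → T.r.bit h = T.l.bit h
  md_turn : T.l.bit .MD = T.d.bit .Mk ∧ T.r.bit .MD = false
  mu_turn : T.l.bit .MU = T.u.bit .Mk ∧ T.r.bit .MU = false
  v_zero : ∀ h, h ≠ VL.Mk → T.d.bit h = false ∧ T.u.bit h = false

/-- The local equations of a tile. -/
structure LocalEq (F : (Sg → Bool) → Bool) (T : Tile) : Prop where
  blockH : ∀ a b, T.tagCell = some (a, b) → BlockH F a b T
  blockV : ∀ a b, T.tagCell = some (a, b) → BlockV F a b T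
  upper : T.IsUpper → UpperEq T
  lower : T.IsLower → ∀ h, T.l.bit h = false ∧ T.r.bit h = false
  corner : T.IsTR → CornerEq T
  cornerTL : T.IsTL → ∀ h, T.d.bit h = false ∧ T.u.bit h = false
  straightH : T.tagCell = none → ¬ T.IsUpper → ¬ T.IsTR → ∀ h, T.r.bit h = T.l.bit h
  straightV : T.tagCell = none → ¬ T.IsUpper → ¬ T.IsTR → ∀ h,
    (h = VL.Bus → ¬ T.IsTop) → T.u.bit h = T.d.bit h
  top : T.IsTop → T.u.bit .Bus = false ∧ ∀ k, T.u.bit (.S k) = false

end Vale.Agent.P196.Full.Tiles
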