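import Vale.Agent.P196.Full.Tiles.Equations.Main
import Vale.Agent.P196.Full.Tiles.Allowed

/-!
# P196: the local equations depend only on the signature

Valid tiles of every level have the bits and the signature of a child at level `1`, hence they
satisfy the local equations.
-/

namespace Vale.Agent.P196.Full.Tiles

attribute [local irreducible] K M0 lvl sRow cPos sCol usable patOf portIdx snap

/-- Two tiles with the same bits. -/
structure SameBits (T C : Tile) : Prop where
  l : T.l.bit = C.l.bit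
  r : T.r.bit = C.r.bit
  d : T.d.bit = C.d.bit
  u : T.u.bit = C.u.bit

/-- Two cells of the central block which are not distinguished by signatures. -/
structure SameCell (F : (Sg → Bool) → Bool) (a b : ℕ) (F' : (Sg → Bool) → Bool) (a' b' : ℕ) :
    Prop where
  op : ∀ k, opBit F a b k = opBit F' a' b' k
  geK : K ≤ a ↔ K ≤ a'
  gtK : K < a ↔ K < a'

open Classical in
lemma portIdx_scan (k : Fin 17) (n : ℕ) : portIdx (sRow (.scan k)) n = (k : ℕ).testBit n := by
  rw [Bool.eq_iff_iff]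
  simp only [portIdx, decide_eq_true_eq]
  refine ⟨?_, fun h => Or.inl ⟨k, rfl, h⟩⟩
  rintro (⟨k', e, h⟩ | ⟨k', e, -⟩ | ⟨c, p, i, e, -⟩)
  · cases sRow_inj e; exact h
  · cases sRow_inj e
  · cases sRow_inj e

open Classical in
lemma portIdx_op (k : Fin 64) (n : ℕ) : portIdx (sRow (.op k)) n = (k : ℕ).testBit n := by
  rw [Bool.eq_iff_iff]
  simp only [portIdx, decide_eq_true_eq]
  refine ⟨?_, fun h => Or.inr (Or.inl ⟨k, rfl, h⟩)⟩
  rintro (⟨k', e, -⟩ | ⟨k', e, h⟩ | ⟨c, p, i, e, -⟩)
  · cases sRow_inj e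
  · cases sRow_inj e; exact h
  · cases sRow_inj e

open Classical in
lemma portIdx_coord (c : Fin 2) (p : Fin 3) (i : Fin 9) (n : ℕ) :
    portIdx (sRow (.coord c p i)) n = ((p : ℕ) * 9 + (i : ℕ)).testBit n := by
  rw [Bool.eq_iff_iff]
  simp only [portIdx, decide_eq_true_eq]
  refine ⟨?_, fun h => Or.inr (Or.inr ⟨c, p, i, rfl, h⟩)⟩
  rintro (⟨k', e, -⟩ | ⟨k', e, -⟩ | ⟨c', p', i', e, h⟩)
  · cases sRow_inj e
  · cases sRow_inj e
  · cases sRow_inj e; exact h

lemma snap_inj {p p' : Fin 3} (h : snap p = snap p') : p = p' := by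
  have := K_large
  fin_cases p <;> fin_cases p' <;> simp [snap] at h ⊢ <;> omega

open Classical in
lemma opBit_snap (f : (Sg → Bool) → Bool) (a : ℕ) (p : Fin 3) :
    opBit f a (snap p) 24 = (p : ℕ).testBit 0 ∧ opBit f a (snap p) 25 = (p : ℕ).testBit 1 := by
  constructor <;> rw [Bool.eq_iff_iff]
  · exact ⟨fun h => let ⟨q, e, h'⟩ := of_decide_eq_true h; snap_inj e ▸ h',
      fun h => decide_eq_true ⟨p, rfl, h⟩⟩
  · exact ⟨fun h => let ⟨q, e, h'⟩ := of_decide_eq_true h; snap_inj e ▸ h',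
      fun h => decide_eq_true ⟨p, rfl, h⟩⟩

open Classical in
lemma opBit_9 (f : (Sg → Bool) → Bool) (a b : ℕ) : opBit f a b 9 = decide (∃ q, b = sRow q) := rfl

open Classical in
lemma opBit_10 (f : (Sg → Bool) → Bool) (a b : ℕ) :
    opBit f a b 10 = decide (∃ q h k, a = sCol q h k) := rfl

open Classical in
lemma opBit_19 (f : (Sg → Bool) → Bool) (a b : ℕ) :
    opBit f a b 19 = decide (∃ q h k, a = sCol q h k ∧ b = sRow q) := rfl

namespace SameCell

variable {F F' : (Sg → Bool) → Bool} {a b a' b' : ℕ} (S : SameCell F a b F' a' b')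
include S

lemma diag : a = b ↔ a' = b' := decide_eq_decide.mp (S.op 0)
lemma a0 : a = 0 ↔ a' = 0 := decide_eq_decide.mp (S.op 1)
lemma a1 : a = 1 ↔ a' = 1 := decide_eq_decide.mp (S.op 2)
lemma aLast : a + 1 = 2 * K ↔ a' + 1 = 2 * K := decide_eq_decide.mp (S.op 3)
lemma b0 : b = 0 ↔ b' = 0 := decide_eq_decide.mp (S.op 4)
lemma bLast : b + 1 = 2 * K ↔ b' + 1 = 2 * K := decide_eq_decide.mp (S.op 5)
lemma aK : a = K ↔ a' = K := decide_eq_decide.mp (S.op 6)
lemma bPos : (∃ t k, b = cPos t k) ↔ ∃ t k, b' = cPos t k := decide_eq_decide.mp (S.op 7)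
lemma aPos : (∃ t k, a = cPos t k) ↔ ∃ t k, a' = cPos t k := decide_eq_decide.mp (S.op 8)
lemma bRow : (∃ q, b = sRow q) ↔ ∃ q, b' = sRow q :=
  decide_eq_decide.mp ((opBit_9 F a b).symm.trans ((S.op 9).trans (opBit_9 F' a' b')))
lemma aCol : (∃ q h k, a = sCol q h k) ↔ ∃ q h k, a' = sCol q h k :=
  decide_eq_decide.mp ((opBit_10 F a b).symm.trans ((S.op 10).trans (opBit_10 F' a' b')))
lemma us : usable a = usable a' := S.op 11

lemma a_eq (c : Fin 2) : a = (c : ℕ) ↔ a' = (c : ℕ) := by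
  fin_cases c
  · exact S.a0
  · exact S.a1

lemma scanRow {k : Fin 17} (ha : a = K) (hb : b = sRow (.scan k)) :
    b' = sRow (.scan k) := by
  obtain ⟨k', e, h⟩ : ∃ k', a' = K ∧ b' = sRow (.scan k') := by
    exact (decide_eq_decide.mp (S.op 20)).mp ⟨k, ha, hb⟩
  have t : ∀ n : Fin 6, (k : ℕ).testBit n = (k' : ℕ).testBit n := by
    intro n
    rw [← portIdx_scan k, ← portIdx_scan k', ← hb, ← h]
    fin_cases n
    exacts [S.op 28, S.op 29, S.op 30, S.op 31, S.op 32, S.op 33]
  have : ∀ x y : Fin 17, (∀ n : Fin 6, (x : ℕ).testBit n = (y : ℕ).testBit n) → x = y := by decide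
  rw [this k k' t]
  exact h

lemma opRow {k : Fin 64} (ha : a + 1 = 2 * K) (hb : b = sRow (.op k)) :
    b' = sRow (.op k) := by
  obtain ⟨k', h⟩ : ∃ k', b' = sRow (.op k') := by
    exact let ⟨k', h⟩ := (decide_eq_decide.mp (S.op 22)).mp ⟨k, ha, hb⟩; ⟨k', h.2⟩
  have t : ∀ n : Fin 6, (k : ℕ).testBit n = (k' : ℕ).testBit n := by
    intro n
    rw [← portIdx_op k, ← portIdx_op k', ← hb, ← h]
    fin_cases n
    exacts [S.op 28, S.op 29, S.op 30, S.op 31, S.op 32, S.op 33]
  have : k = k' := by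
    refine Fin.ext (Nat.eq_of_testBit_eq fun n => ?_)
    by_cases hn : n < 6
    · exact t ⟨n, hn⟩
    · have : 64 ≤ 2 ^ n := le_trans (by norm_num) (Nat.pow_le_pow_right two_pos (not_lt.mp hn))
      rw [Nat.testBit_lt_two_pow (by omega), Nat.testBit_lt_two_pow (by omega)]
  rw [this]
  exact h

lemma coordRow {c : Fin 2} {p : Fin 3} {i : Fin 9} (ha : a = (c : ℕ))
    (hb : b = sRow (.coord c p i)) : b' = sRow (.coord c p i) := by
  obtain ⟨c', p', i', hc, h⟩ :
      ∃ (c' : Fin 2) (p' : Fin 3) (i' : Fin 9), a' = (c' : ℕ) ∧ b' = sRow (.coord c' p' i') := by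
    exact (decide_eq_decide.mp (S.op 21)).mp ⟨c, p, i, ha, hb⟩
  obtain rfl : c' = c := Fin.ext (hc.symm.trans ((S.a_eq c).mp ha))
  have t : ∀ n : Fin 6, ((p : ℕ) * 9 + (i : ℕ)).testBit n = ((p' : ℕ) * 9 + (i' : ℕ)).testBit n := by
    intro n
    rw [← portIdx_coord c' p i, ← portIdx_coord c' p' i', ← hb, ← h]
    fin_cases n
    exacts [S.op 28, S.op 29, S.op 30, S.op 31, S.op 32, S.op 33]
  have e : (p : ℕ) * 9 + (i : ℕ) = (p' : ℕ) * 9 + (i' : ℕ) := by
    refine Nat.eq_of_testBit_eq fun n => ?_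
    by_cases hn : n < 6
    · exact t ⟨n, hn⟩
    · have : 64 ≤ 2 ^ n := le_trans (by norm_num) (Nat.pow_le_pow_right two_pos (not_lt.mp hn))
      rw [Nat.testBit_lt_two_pow (by omega), Nat.testBit_lt_two_pow (by omega)]
  obtain rfl : p = p' := Fin.ext (by omega)
  obtain rfl : i = i' := Fin.ext (by omega)
  exact h

lemma snapRow {c : Fin 2} {p : Fin 3} (ha : a = (c : ℕ)) (hb : b = snap p) : b' = snap p := by
  obtain ⟨p', h⟩ : ∃ p', b' = snap p' := by
    have h : (decide (∃ q, a = 0 ∧ b = snap q) || decide (∃ q, a = 1 ∧ b = snap q)) =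
        (decide (∃ q, a' = 0 ∧ b' = snap q) || decide (∃ q, a' = 1 ∧ b' = snap q)) := S.op 23
    rw [Bool.eq_iff_iff] at h
    simp only [Bool.or_eq_true, decide_eq_true_eq, exists_and_left] at h
    have hc : (a = 0 ∧ ∃ q, b = snap q) ∨ (a = 1 ∧ ∃ q, b = snap q) := by
      fin_cases c
      · exact Or.inl ⟨ha, p, hb⟩
      · exact Or.inr ⟨ha, p, hb⟩
    rcases h.mp hc with ⟨-, h'⟩ | ⟨-, h'⟩ <;> exact h'
  have t0 := S.op 24
  have t1 := S.op 25
  rw [hb, h, (opBit_snap F a p).1, (opBit_snap F' a' p').1] at t0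
  rw [hb, h, (opBit_snap F a p).2, (opBit_snap F' a' p').2] at t1
  have : ∀ x y : Fin 3, (x : ℕ).testBit 0 = (y : ℕ).testBit 0 →
      (x : ℕ).testBit 1 = (y : ℕ).testBit 1 → x = y := by decide
  rw [this p p' t0 t1]
  exact h

open Classical in
lemma pat {q : Sg} (hu : usable a = true) (hb : b = sRow q) :
    ∃ q', b' = sRow q' ∧ patOf a q = patOf a' q' := by
  have hu' : usable a' = true := S.us ▸ hu
  obtain ⟨q', h⟩ := S.bRow.mp ⟨q, hb⟩
  refine ⟨q', h, ?_⟩
  have e : ∀ (f : (Sg → Bool) → Bool) (x : ℕ) (y : Sg), usable x = true →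
      opBit f x (sRow y) 13 = patOf x y := by
    intro f x y hx
    rw [Bool.eq_iff_iff]
    show (usable x && decide (∃ q, sRow y = sRow q ∧ patOf x q = true)) = true ↔ _
    simp only [hx, Bool.true_and, decide_eq_true_eq]
    exact ⟨fun ⟨z, ez, hz⟩ => sRow_inj ez ▸ hz, fun hz => ⟨y, rfl, hz⟩⟩
  have := S.op 13
  rwa [hb, h, e F a q hu, e F' a' q' hu'] at this

variable {T C : Tile} (B : SameBits T C)
include B

lemma hin_eq : T.hin a = C.hin a' := by
  funext h
  simp only [Tile.hin, S.a0, B.l, B.r]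

lemma vin_eq : T.vin b = C.vin b' := by
  funext h
  simp only [Tile.vin, S.b0, B.d, B.u]

lemma tagMark_eq (c : Fin 2) : T.tagMark a c = C.tagMark a' c := by
  unfold Tile.tagMark
  rw [S.hin_eq B, B.l]

theorem blockH (h : BlockH F' a' b' C) : BlockH F a b T := by
  have eh := S.hin_eq B
  have ev := S.vin_eq B
  constructor <;> simp only [eh, ev, B.l, B.r, B.d, B.u]
  · exact fun hne => h.through (fun e => hne (S.aLast.mpr e))
  · exact fun h0 => h.c_zero fun t k e =>
      let ⟨t', k', e'⟩ := S.bPos.mpr ⟨t, k, e⟩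
      h0 t' k' e'
  · exact fun hne => h.marks_zero (fun e => hne (S.bLast.mpr e))
  · exact fun hne => h.mk_through (fun e => hne (S.aK.mpr e))
  · exact fun hle => h.md_left (not_lt.mp fun e => (S.gtK.mpr e).not_ge hle)
  · exact fun hlt => h.md_low (not_le.mp fun e => (S.geK.mpr e).not_gt hlt)
  · exact fun hK hne => h.md_through (S.gtK.mp hK) (fun e => hne (S.aLast.mpr e))
  · intro he
    obtain ⟨h1, h2, h3⟩ := h.md_turn (S.aLast.mp he)
    exact ⟨h1, h2, fun e => h3 (S.bLast.mp e)⟩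
  · exact fun h0 => h.inner_left (S.a0.mp h0)
  · exact fun h0 hne => h.inner_through (fun e => h0 (S.a0.mpr e)) (fun e => hne (S.aLast.mpr e))
  · exact fun he => h.inner_right (S.aLast.mp he)
  · intro he
    obtain ⟨h1, h2, h3⟩ := h.right_values (S.aLast.mp he)
    exact ⟨h1, h2, fun hq => h3 fun q e =>
      let ⟨q', e'⟩ := S.bRow.mpr ⟨q, e⟩
      hq q' e'⟩
  · exact fun e => h.diag (S.diag.mp e)
  · intro h1 h2 k
    rw [S.op k]
    exact h.lookup h1 h2 k
  · exact h.lookup_none
  · intro h14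
    obtain ⟨h1, h2⟩ := h.forbidden h14
    exact ⟨h1, S.bLast.mpr h2⟩
  · intro t k hat hbt
    obtain ⟨t', k', e1, e2⟩ := (decide_eq_decide.mp (S.op 17)).mp ⟨t, k, hat, hbt⟩
    exact h.port_bottom t' k' e1 e2
  · intro t k hat hbt
    obtain ⟨t', k', e1, e2⟩ := (decide_eq_decide.mp (S.op 18)).mp ⟨t, k, hat, hbt⟩
    exact h.port_top t' k' e1 e2
  · intro q u v hat hbt
    obtain ⟨q', u', v', e1, e2⟩ := (decide_eq_decide.mp
      ((opBit_19 F a b).symm.trans ((S.op 19).trans (opBit_19 F' a' b')))).mp ⟨q, u, v, hat, hbt⟩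
    exact h.port_bus q' u' v' e1 e2
  · exact fun ha k hb => h.port_scan (S.aK.mp ha) k (S.scanRow ha hb)
  · exact fun c p k ha hb => h.port_coord c p k ((S.a_eq c).mp ha) (S.coordRow ha hb)
  · exact fun ha k hb => h.port_op (S.aLast.mp ha) k (S.opRow ha hb)

theorem blockV (h : BlockV F' a' b' C) : BlockV F a b T := by
  have eh := S.hin_eq B
  have ev := S.vin_eq B
  have et := S.tagMark_eq B
  have em : T.valMark = C.valMark := by unfold Tile.valMark; rw [B.l, B.r]
  constructor <;> simp only [eh, ev, et, em, B.l, B.r, B.d, B.u]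
  · exact fun hne => h.through (fun e => hne (S.bLast.mpr e))
  · exact fun h0 => h.c_zero fun t k e =>
      let ⟨t', k', e'⟩ := S.aPos.mpr ⟨t, k, e⟩
      h0 t' k' e'
  · exact fun hne => h.mk_zero (fun e => hne (S.aLast.mpr e))
  · exact fun hne => h.mk_through (fun e => hne (S.bLast.mpr e))
  · exact fun h0 => h.inner_bot (S.b0.mp h0)
  · exact fun he => h.inner_top (S.bLast.mp he)
  · exact fun he => h.top_values (S.bLast.mp he)
  · exact fun h0 hne => h.top_through (fun e => h0 (S.b0.mpr e)) (fun e => hne (S.bLast.mpr e))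
  · exact fun h0 => h.bus_bot (S.b0.mp h0)
  · exact fun h0 => h.bus_through (fun e => h0 (S.b0.mpr e))
  · exact fun h0 => h.bus_zero fun q u v e =>
      let ⟨q', u', v', e'⟩ := S.aCol.mpr ⟨q, u, v, e⟩
      h0 q' u' v' e'
  · intro t k u v hat hbt
    obtain ⟨t', k', u', v', e1, e2⟩ := (decide_eq_decide.mp (S.op 15)).mp ⟨t, k, u, v, hat, hbt⟩
    exact h.bus_left t' k' u' v' e1 e2
  · intro t k u v hat hbt
    obtain ⟨t', k', u', v', e1, e2⟩ := (decide_eq_decide.mp (S.op 16)).mp ⟨t, k, u, v, hat, hbt⟩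
    exact h.bus_right t' k' u' v' e1 e2
  · exact fun hz => h.qm_zero (S.us ▸ hz)
  · exact fun h0 hu => h.qm_start (S.b0.mp h0) (S.us ▸ hu)
  · exact fun h0 hne hq => h.qm_pass (fun e => h0 (S.b0.mpr e)) (fun e => hne (S.bLast.mpr e))
      fun q e => let ⟨q', e'⟩ := S.bRow.mpr ⟨q, e⟩; hq q' e'
  · intro q hb hu
    obtain ⟨q', e, hp⟩ := S.pat hu hb
    rw [hp]
    exact h.qm_test q' e (S.us ▸ hu)
  · intro he hu hf
    refine h.qm_final (S.bLast.mp he) (S.us ▸ hu) ?_
    have e := S.op 14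
    rw [opBit_14, opBit_14, ← S.us, hu, hf, decide_eq_true he,
      decide_eq_true (S.bLast.mp he)] at e
    simpa using e.symm
  · exact fun hne => h.scan_off (fun e => hne (S.aK.mpr e))
  · exact fun h0 => h.scan_bot (S.b0.mp h0)
  · exact fun h0 hne => h.scan_through (fun e => h0 (S.b0.mpr e)) (fun e => hne (S.bLast.mpr e))
  · exact fun ha he => h.scan_step (S.aK.mp ha) (S.bLast.mp he)
  · exact fun c hne => h.coord_off c (fun e => hne ((S.a_eq c).mpr e))
  · exact fun c ha h0 => h.coord_step c ((S.a_eq c).mp ha) (fun e => h0 (S.b0.mpr e))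
  · exact fun c p ha hb => h.coord_snap c p ((S.a_eq c).mp ha) (S.snapRow ha hb)
  · exact fun h0 hne => h.coord_through (fun e => h0 (S.b0.mpr e)) (fun e => hne (S.bLast.mpr e))
  · exact fun ha he => h.scan_once (S.aK.mp ha) (S.bLast.mp he)
  · exact fun c ha => h.coord_once c ((S.a_eq c).mp ha)
  · exact fun hne => h.op_off (fun e => hne (S.aLast.mpr e))
  · exact fun ha h0 => h.op_step (S.aLast.mp ha) (fun e => h0 (S.b0.mpr e))
  · exact fun ha h0 => h.op_total (S.aLast.mp ha) (S.b0.mp h0)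
  · exact fun h0 hne => h.op_through (fun e => h0 (S.b0.mpr e)) (fun e => hne (S.bLast.mpr e))

end SameCell

/-! ### Classes read from the kinds of colours -/

lemma GCol.code_lt_sixteen (g : GCol) : g.code < 16 := by
  cases g with
  | outer k => simp only [GCol.code]; omega
  | tag a b => simp only [GCol.code]; split <;> omega
  | side z hi v => simp only [GCol.code]; split <;> omega

lemma GCol.code_eq_side (g : GCol) (z : Fin 4) (hb : Bool) :
    g.code = 8 + 2 * (z : ℕ) + (if hb then 1 else 0) ↔ ∃ v, g = .side z hb v := by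
  refine ⟨fun h => ?_, fun ⟨v, e⟩ => e ▸ rfl⟩
  cases g with
  | outer k => simp only [GCol.code] at h; omega
  | tag a b => simp only [GCol.code] at h; split at h <;> omega
  | side y hy v =>
    simp only [GCol.code] at h
    refine ⟨v, ?_⟩
    obtain rfl : y = z := Fin.ext (by cases hy <;> cases hb <;> simp at h ⊢ <;> omega)
    cases hy <;> cases hb <;> simp at h ⊢

/-- In a tile with the geometry of a cell, the classes are given by the kinds of the colours. -/
theorem class_code {s : ℕ} {T : Tile} (hT : HasGeom s T) :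
    (T.IsUpper ↔ T.l.g.code = 10 ∧ T.r.g.code = 11) ∧
    (T.IsLower ↔ T.l.g.code = 8 ∧ T.r.g.code = 9) ∧
    (T.IsTR ↔ T.l.g.code = 11 ∧ T.d.g.code = 15) ∧
    (T.IsTL ↔ T.r.g.code = 10 ∧ T.d.g.code = 13) ∧
    (T.IsTop ↔ T.u.g.code < 4) ∧
    ((∃ c, T.tagCell = some c) ↔ T.l.g.code = 4) := by
  obtain ⟨i, j, hi, hj, hl, hr, hd, hu⟩ := hT
  have := lvl_ge s
  have := K_large
  have c10 : ∀ g : GCol, g.code = 10 ↔ ∃ v, g = .side 1 false v := fun g => g.code_eq_side 1 false
  have c11 : ∀ g : GCol, g.code = 11 ↔ ∃ v, g = .side 1 true v := fun g => g.code_eq_side 1 true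
  have c8 : ∀ g : GCol, g.code = 8 ↔ ∃ v, g = .side 0 false v := fun g => g.code_eq_side 0 false
  have c9 : ∀ g : GCol, g.code = 9 ↔ ∃ v, g = .side 0 true v := fun g => g.code_eq_side 0 true
  have c13 : ∀ g : GCol, g.code = 13 ↔ ∃ v, g = .side 2 true v := fun g => g.code_eq_side 2 true
  have c15 : ∀ g : GCol, g.code = 15 ↔ ∃ v, g = .side 3 true v := fun g => g.code_eq_side 3 true
  refine ⟨?_, ?_, ?_, ?_, ?_, ?_⟩
  · rw [c10, c11]
    refine ⟨fun ⟨v, e⟩ => ⟨⟨v, e.1⟩, v, e.2⟩, fun ⟨⟨v, e⟩, w, e'⟩ => ⟨v, e, ?_⟩⟩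
    rw [hl, geoH_side_iff (by omega) hj] at e
    have e2 := e'
    rw [hr, geoH_side_iff (by omega) hj] at e2
    simp only [Fin.reduceEq, true_and, false_and, false_or, or_false] at e e2
    rw [e', show v = w by omega]
  · rw [c8, c9]
    refine ⟨fun ⟨v, e⟩ => ⟨⟨v, e.1⟩, v, e.2⟩, fun ⟨⟨v, e⟩, w, e'⟩ => ⟨v, e, ?_⟩⟩
    rw [hl, geoH_side_iff (by omega) hj] at e
    have e2 := e'
    rw [hr, geoH_side_iff (by omega) hj] at e2
    simp only [Fin.reduceEq, true_and, false_and, or_false] at e e2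
    rw [e', show v = w by omega]
  · rw [c11, c15]
    refine ⟨fun ⟨v, e⟩ => ⟨⟨v, e.1⟩, v, e.2⟩, fun ⟨⟨v, e⟩, w, e'⟩ => ⟨v, e, ?_⟩⟩
    rw [hl, geoH_side_iff (by omega) hj] at e
    have e2 := e'
    rw [hd, geoV, GCol.tr_eq_side, trZone_one.2.1, geoH_side_iff (by omega) hi] at e2
    simp only [Fin.reduceEq, true_and, false_and, false_or, or_false] at e e2
    rw [e', show v = w by omega]
  · rw [c10, c13]
    refine ⟨fun ⟨v, e⟩ => ⟨⟨v, e.1⟩, v, e.2⟩, fun ⟨⟨v, e⟩, w, e'⟩ => ⟨v, e, ?_⟩⟩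
    rw [hr, geoH_side_iff (by omega) hj] at e
    have e2 := e'
    rw [hd, geoV, GCol.tr_eq_side, trZone_one.2.2.1, geoH_side_iff (by omega) hi] at e2
    simp only [Fin.reduceEq, true_and, false_and, false_or, or_false] at e e2
    rw [e', show v = w by omega]
  · unfold Tile.IsTop
    cases T.u.g with
    | outer k => simp [GCol.code]
    | tag a b => simp only [GCol.code]; split <;> simp
    | side z h v => simp only [GCol.code, reduceCtorEq, exists_false, false_iff]; omega
  · have hb : ∀ a b, T.l.g = .tag a b → a ≤ 2 * K ∧ b < 2 * K := by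
      intro a b e
      rw [hl, geoH_tag_iff (by omega)] at e
      omega
    unfold Tile.tagCell
    cases hg : T.l.g with
    | outer k => simp only [reduceCtorEq, exists_false, GCol.code, false_iff]; omega
    | side z h v => simp only [reduceCtorEq, exists_false, GCol.code, false_iff]; omega
    | tag a b =>
      have := hb a b hg
      simp only [GCol.code, Option.ite_none_right_eq_some]
      constructor
      · rintro ⟨c, h, -⟩
        rw [if_neg (by omega)]
      · intro h
        split at h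
        · omega
        · exact ⟨(a, b), ⟨by omega, by omega⟩, rfl⟩

lemma sig_coord_cell (F : (Sg → Bool) → Bool) (M : ℕ) {T : Tile} {a b : ℕ}
    (h : T.tagCell = some (a, b)) (p : Fin 3) : sig F M T (.coord 0 p 0) = decide (snap p ≤ a) := by
  unfold Tile.tagCell at h
  cases hg : T.l.g with
  | tag x y =>
    simp only [hg, Option.ite_none_right_eq_some, Option.some.injEq, Prod.mk.injEq] at h
    obtain ⟨hlt, rfl, rfl⟩ := h
    have e : T.l.g.coord 0 = some x := by
      simp [hg, GCol.coord, GCol.tagA, Option.filter, hlt.1]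
    simp [sig, coordBit, Tile.gs, e]
  | _ => simp [hg] at h

/-- The equations hold for every tile with the signature of a tile satisfying them. -/
theorem LocalEq.of_sig {F F' : (Sg → Bool) → Bool} {M M' s s' : ℕ} {T C : Tile}
    (hT : HasGeom s T) (hC : HasGeom s' C) (e : sig F M T = sig F' M' C) (h : LocalEq F' C) :
    LocalEq F T := by
  have sd : ∀ k t, T.sideBit k t = C.sideBit k t := fun k t => congrFun e (.side k t 0)
  have B : SameBits T C :=
    ⟨funext fun h => sd 0 (.inr (.inl h)), funext fun h => sd 1 (.inr (.inl h)),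
      funext fun h => sd 2 (.inr (.inr h)), funext fun h => sd 3 (.inr (.inr h))⟩
  have code : ∀ g g' : GCol, (∀ k : Fin 4, g.code.testBit k = g'.code.testBit k) →
      g.code = g'.code := by
    intro g g' h
    refine Nat.eq_of_testBit_eq fun n => ?_
    by_cases hn : n < 4
    · exact h ⟨n, hn⟩
    · have : 16 ≤ 2 ^ n := le_trans (by norm_num) (Nat.pow_le_pow_right two_pos (not_lt.mp hn))
      rw [Nat.testBit_lt_two_pow (g.code_lt_sixteen.trans_le this),
        Nat.testBit_lt_two_pow (g'.code_lt_sixteen.trans_le this)]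
  have gl := code T.l.g C.l.g fun k => sd 0 (.inl k)
  have gr := code T.r.g C.r.g fun k => sd 1 (.inl k)
  have gd := code T.d.g C.d.g fun k => sd 2 (.inl k)
  have gu := code T.u.g C.u.g fun k => sd 3 (.inl k)
  obtain ⟨t1, t2, t3, t4, t5, t6⟩ := class_code hT
  obtain ⟨c1, c2, c3, c4, c5, c6⟩ := class_code hC
  rw [gl, gr] at t1 t2
  rw [gl, gd] at t3
  rw [gr, gd] at t4
  rw [gu] at t5
  rw [gl] at t6
  have e1 := t1.trans c1.symm
  have e2 := t2.trans c2.symm
  have e3 := t3.trans c3.symm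
  have e4 := t4.trans c4.symm
  have e5 := t5.trans c5.symm
  have e6 := t6.trans c6.symm
  have cell : ∀ a b, T.tagCell = some (a, b) →
      ∃ a' b', C.tagCell = some (a', b') ∧ SameCell F a b F' a' b' := by
    intro a b hab
    obtain ⟨⟨a', b'⟩, hab'⟩ := e6.mp ⟨_, hab⟩
    refine ⟨a', b', hab', fun k => ?_, ?_, ?_⟩
    · simpa [sig, hab, hab'] using congrFun e (.op k)
    · have := congrFun e (.coord 0 1 0)
      rw [sig_coord_cell F M hab, sig_coord_cell F' M' hab'] at this
      simpa [snap] using this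
    · have := congrFun e (.coord 0 2 0)
      rw [sig_coord_cell F M hab, sig_coord_cell F' M' hab'] at this
      simpa [snap, Nat.succ_le_iff] using this
  have none : T.tagCell = Option.none → C.tagCell = Option.none := by
    intro hn
    rcases hc : C.tagCell with _ | c
    · rfl
    · obtain ⟨x, hx⟩ := e6.mpr ⟨c, hc⟩
      simp [hn] at hx
  have em : T.valMark = C.valMark := by unfold Tile.valMark; rw [B.l, B.r]
  refine ⟨?_, ?_, ?_, ?_, ?_, ?_, ?_, ?_, ?_⟩
  · intro a b hab
    obtain ⟨a', b', hab', S⟩ := cell a b hab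
    exact S.blockH B (h.blockH a' b' hab')
  · intro a b hab
    obtain ⟨a', b', hab', S⟩ := cell a b hab
    exact S.blockV B (h.blockV a' b' hab')
  · intro hu
    obtain ⟨h1, h2, h3, h4, h5, h6⟩ := h.upper (e1.mp hu)
    refine ⟨?_, ?_, ?_, ?_, ?_, ?_⟩ <;> simp only [B.l, B.r, B.d, B.u, em, e5]
    exacts [h1, h2, h3, h4, h5, h6]
  · intro hl
    rw [B.l, B.r]
    exact h.lower (e2.mp hl)
  · intro hc
    obtain ⟨h1, h2, h3, h4⟩ := h.corner (e3.mp hc)
    refine ⟨?_, ?_, ?_, ?_⟩ <;> simp only [B.l, B.r, B.d, B.u]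
    exacts [h1, h2, h3, h4]
  · intro hc
    rw [B.d, B.u]
    exact h.cornerTL (e4.mp hc)
  · intro hn hu ht
    rw [B.l, B.r]
    exact h.straightH (none hn) (fun x => hu (e1.mpr x)) (fun x => ht (e3.mpr x))
  · intro hn hu ht k hk
    rw [B.d, B.u]
    exact h.straightV (none hn) (fun x => hu (e1.mpr x)) (fun x => ht (e3.mpr x)) k
      (fun q x => hk q (e5.mpr x))
  · intro ht
    rw [B.u]
    exact h.top (e5.mp ht)

/-- Valid tiles satisfy the local equations. -/
theorem localEq_of_valid {s : ℕ} {T : Tile} (h : Valid s T) : LocalEq forb T := by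
  obtain ⟨hT, F, P, i, j, hP, hF, hi, hj, e⟩ := h
  exact LocalEq.of_sig hT (hasGeom_child F 1 P hi hj) e (localEq_of_hasGeom hP hF hi hj)

/-- Generated tiles of the lowest level satisfy the local equations. -/
theorem localEq_of_generated {t : ℕ} {T : Tile} (h : Generated forb t T) : LocalEq forb T := by
  have ok : ∀ P, Valid t P → forb (sig forb (lvl t) P) = false := fun P hP => by
    simp [forb, hP.2]
  cases h with
  | base =>
    rw [← child_seed (F := forb) (lvl_ge t) (seed (lvl (t + 1)))]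
    exact localEq_of_hasGeom (hasGeom_of_generated (Generated.base (forb := forb) (t + 1)))
      (ok _ (valid_seed t)) (by have := lvl_ge t; have := K_large; omega)
      (by have := lvl_ge t; have := K_large; omega)
  | step _ P i j hP hi hj =>
    exact localEq_of_hasGeom (hasGeom_of_generated hP)
      (ok _ (valid_of_generated hP t rfl)) hi hj

/-- The tiles of every configuration satisfy the local equations. -/
theorem localEq_of_ok {s : ℕ} {T : Tile} (h : OK s T) : LocalEq forb T := by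
  cases s with
  | zero => exact localEq_of_generated h
  | succ s => exact localEq_of_valid h

end Vale.Agent.P196.Full.Tiles
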