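import Vale.Agent.P196.Full.Tiles.Equations.Defs
import Vale.Agent.P196.Full.Tiles.Spec

/-!
# P196: table positions and classes of cells
-/

namespace Vale.Agent.P196.Full.Tiles

lemma K_large : 16 * nC + 16 * nS + 100 ≤ K ∧ 4 * 2 ^ nS + 16 * nS ≤ K := by
  have := Nat.one_le_two_pow (n := nS)
  unfold K
  omega

lemma lvl_ge (s : ℕ) : 4 * K ≤ lvl s := by unfold lvl M0; omega

lemma cPos_bounds (t : DI) (k : Fin 2) : 4 ≤ cPos t k ∧ cPos t k < 4 + 2 * nC := by
  have := (cIdx t).isLt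
  have := k.isLt
  unfold cPos
  omega

lemma cPos_inj {t t' : DI} {k k' : Fin 2} (h : cPos t k = cPos t' k') : t = t' ∧ k = k' := by
  have := k.isLt
  have := k'.isLt
  unfold cPos at h
  exact ⟨cIdx.injective (Fin.ext (by omega)), Fin.ext (by omega)⟩

lemma sRow_bounds (q : Sg) : 4 + 2 * nC ≤ sRow q ∧ sRow q < 4 + 2 * nC + nS := by
  have := (sIdx q).isLt
  unfold sRow
  omega

lemma sRow_inj {q q' : Sg} (h : sRow q = sRow q') : q = q' := by
  unfold sRow at h
  exact sIdx.injective (Fin.ext (by omega))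

lemma cPos_ne_sRow (t : DI) (k : Fin 2) (q : Sg) : cPos t k ≠ sRow q := by
  have := cPos_bounds t k
  have := sRow_bounds q
  omega

lemma sCol_bounds (q : Sg) (h k : Fin 2) : 4 + 2 * nC ≤ sCol q h k ∧ sCol q h k + 1 < 2 * K := by
  have := (sIdx q).isLt
  have := k.isLt
  have := K_large
  unfold sCol
  split <;> omega

lemma sCol_inj {q q' : Sg} {h h' k k' : Fin 2} (e : sCol q h k = sCol q' h' k') : q = q' := by
  have := (sIdx q).isLt
  have := (sIdx q').isLt
  have := k.isLt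
  have := k'.isLt
  have := K_large
  refine sIdx.injective (Fin.ext ?_)
  unfold sCol at e
  split at e <;> split at e <;> omega

lemma snap_le (p : Fin 3) : snap p ≤ K + 1 := by unfold snap; split <;> [omega; split <;> omega]

lemma usable_iff (a : ℕ) : usable a = true ↔ mBase ≤ a ∧ a < mBase + 2 ^ nS := by simp [usable]

lemma opBit_11 (f : (Sg → Bool) → Bool) (a b : ℕ) : opBit f a b 11 = usable a := rfl

lemma opBit_14 (f : (Sg → Bool) → Bool) (a b : ℕ) :
    opBit f a b 14 = (usable a && decide (b + 1 = 2 * K) && f (patOf a)) := rfl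

lemma shown_cPos (T : Tile) (s : Fin 4) (t : DI) (k : Fin 2) :
    shown T s (cPos t k) = T.sideBit s t := by
  rw [Bool.eq_iff_iff]
  simp only [shown, decide_eq_true_eq]
  exact ⟨fun ⟨t', k', e, h⟩ => (cPos_inj e).1 ▸ h, fun h => ⟨t, k, rfl, h⟩⟩

lemma shown_eq_false (T : Tile) (s : Fin 4) (b : ℕ) (hb : ∀ t k, b ≠ cPos t k) :
    shown T s b = false := by
  simp only [shown, decide_eq_false_iff_not]
  exact fun ⟨t, k, e, _⟩ => hb t k e

lemma shown_sRow (T : Tile) (s : Fin 4) (q : Sg) : shown T s (sRow q) = false :=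
  shown_eq_false T s _ fun t k => (cPos_ne_sRow t k q).symm

/-- The classes of the cell `(i, j)` of a block of half-width `M`. -/
structure CellClass (C : Tile) (M i j : ℕ) : Prop where
  upper : C.IsUpper ↔ i = M ∧ M + K ≤ j
  lower : C.IsLower ↔ i = M ∧ j + K < M
  tr : C.IsTR ↔ i = j ∧ M + K ≤ i
  tl : C.IsTL ↔ i + j + 1 = 2 * M ∧ i + K < M
  top : C.IsTop ↔ j + 1 = 2 * M
  cell : ∀ a b, C.tagCell = some (a, b) ↔
    M ≤ i + K ∧ i < M + K ∧ M ≤ j + K ∧ j < M + K ∧ a = i + K - M ∧ b = j + K - M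

end Vale.Agent.P196.Full.Tiles
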