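import Vale.Agent.P196.Full.Tiles.Equations.Values

/-!
# P196: the left and right bits in the central block
-/

namespace Vale.Agent.P196.Full.Tiles

variable {F : (Sg → Bool) → Bool} {M : ℕ} {T : Tile} {i j a b : ℕ}

theorem blockH_child (hM : 4 * K ≤ M) (hT : GeomOK M T) (ha : i + K = M + a) (ha' : a < 2 * K)
    (hb : j + K = M + b) (hb' : b < 2 * K) : BlockH F a b (child F M T i j) := by
  have := K_large
  have eb : j + K - M = b := by omega
  have h1 : M ≤ j + K ∧ j < M + K := by omega
  have hC : ∀ x, fillH F M T x j .C = if x + 1 ≤ M + K then shown T 0 b else shown T 1 b := by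
    intro x
    simp [fillH, eb, h1]
  have hA : ∀ x, fillH F M T x j .A =
      decide ((if x + 1 ≤ M + K then T.l.g.tagA else T.r.g.tagA) = some b) := fun x => by
    simp [fillH, eb, h1]
  have hB : ∀ x, fillH F M T x j .B =
      decide ((if x + 1 ≤ M + K then T.l.g.tagB else T.r.g.tagB) = some b) := fun x => by
    simp [fillH, eb, h1]
  have hMk : ∀ x, fillH F M T x j .Mk = (decide (b + 1 = 2 * K) &&
      decide ((if x ≤ M then T.l.g.val else T.r.g.val) = some 0)) := fun x => by
    by_cases h : b + 1 = 2 * K
    · simp [fillH, h, show M + K ≤ j + 1 by omega, show j + 1 - (M + K) = 0 by omega]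
    · simp [fillH, h]
      omega
  have hMD : ∀ x, fillH F M T x j .MD = (decide (b + 1 = 2 * K) && decide (M < x ∧ x ≤ j) &&
      decide (T.d.g.val = some 0)) := fun x => by
    by_cases h : b + 1 = 2 * K
    · simp [fillH, h, show M + K ≤ j + 1 by omega, show j + 1 - (M + K) = 0 by omega]
    · simp [fillH, h]
      omega
  have hMU : ∀ x, fillH F M T x j .MU = (decide (b + 1 = 2 * K) && decide (M < x ∧ x ≤ j) &&
      decide (T.u.g.val = some 0)) := fun x => by
    by_cases h : b + 1 = 2 * K
    · simp [fillH, h, show M + K ≤ j + 1 by omega, show j + 1 - (M + K) = 0 by omega]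
    · simp [fillH, h]
      omega
  have hin : ∀ {h : HL}, h.IsInner → (child F M T i j).hin a h = rowVal F M T b h :=
    fun hh => hin_child ha ha' hb hb' hh
  have dA : fillV F M T i j .A = decide (T.d.g.tagA = some a) := by
    simp [fillV, show M ≤ i + K ∧ i < M + K by omega, show i + K - M = a by omega,
      show j + 1 ≤ M + K by omega]
  have dB : fillV F M T i j .B = decide (T.d.g.tagB = some a) := by
    simp [fillV, show M ≤ i + K ∧ i < M + K by omega, show i + K - M = a by omega,
      show j + 1 ≤ M + K by omega]
  constructor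
  · intro hne h hh
    dsimp only [child]
    rcases hh with rfl | rfl | rfl <;> simp only [hC, hA, hB] <;>
      rw [if_pos (by omega), if_pos (by omega)]
  · intro h0
    dsimp only [child]
    simp only [hC, shown_eq_false T _ b h0, ite_self, and_self]
  · intro hne h hh
    dsimp only [child]
    rcases hh with rfl | rfl | rfl <;> simp [hMk, hMD, hMU, hne]
  · intro hne
    dsimp only [child]
    simp only [hMk]
    by_cases h : a < K
    · rw [if_pos (by omega : i + 1 ≤ M), if_pos (by omega : i ≤ M)]
    · rw [if_neg (by omega : ¬i + 1 ≤ M), if_neg (by omega : ¬i ≤ M)]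
  · intro hle
    dsimp only [child]
    simp [hMD, hMU, show ¬M < i by omega]
  · intro hlt
    dsimp only [child]
    simp [hMD, hMU, show ¬M < i + 1 by omega]
  · intro hK hne
    dsimp only [child]
    simp only [hMD, hMU]
    by_cases h : b + 1 = 2 * K
    · simp [show M < i by omega, show M < i + 1 by omega, show i + 1 ≤ j by omega,
        show i ≤ j by omega]
    · simp [h]
  · intro he
    refine ⟨?_, ?_, fun h => ?_⟩
    · dsimp only [child]
      simp [hMD]; omega
    · dsimp only [child]
      simp [hMU]; omega
    · dsimp only [child]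
      simp [hMD, hMU, h, fillV, show M < i by omega, show i ≤ j by omega,
        show M + K ≤ i + 1 by omega, show j ≤ i by omega, show ¬j + 1 ≤ i by omega,
        show i + 1 - (M + K) = 0 by omega]
  · intro h0 h hh
    dsimp only [child]
    rw [fillH_inner hb hb' hh, decide_eq_false (by omega), Bool.false_and]
  · intro h0 hne h hh
    dsimp only [child]
    rw [fillH_inner hb hb' hh, fillH_inner hb hb' hh, decide_eq_true (by omega),
      decide_eq_true (by omega)]
  · intro he h hh
    dsimp only [child]
    rw [fillH_inner hb hb' hh, decide_eq_false (by omega), Bool.false_and]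
  · intro he
    dsimp only [child]
    simp only [fillH_inner (x := i) hb hb' (h := .AR) trivial,
      fillH_inner (x := i) hb hb' (h := .BR) trivial, fillH_inner (x := i) hb hb' (h := .P) trivial,
      hA, hB, hC, decide_eq_true (show M < i + K ∧ i < M + K by omega), Bool.true_and,
      if_neg (show ¬i + 1 + 1 ≤ M + K by omega)]
    exact ⟨rfl, rfl, fun h => rowVal_P_other h⟩
  · intro hab
    show _ = fillV F M T i j .A ∧ _ = fillV F M T i j .B ∧ _
    rw [hin (h := .AD) trivial, hin (h := .BD) trivial, hin (h := .AU) trivial,
      hin (h := .BU) trivial,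
      vin_child ha ha' hb hb' (h := .AT) trivial, vin_child ha ha' hb hb' (h := .BT) trivial, dA, dB]
    subst hab
    exact ⟨rfl, rfl, rfl, rfl⟩
  · intro hl hd k
    have hl' : T.l.g.tagB = some b := by
      have h : fillH F M T i j .B = true := hl
      rw [hB, if_pos (by omega)] at h
      simpa using h
    have hd' : T.d.g.tagA = some a := by
      have h : fillV F M T i j .A = true := hd
      rw [dA] at h
      simpa using h
    have hc := (hT.crossing a b).mpr ⟨ha', hb', hd', hl'⟩
    rw [hin (h := .O k) trivial, Bool.eq_iff_iff]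
    simp [rowVal, hc]
  · intro hl k
    have hl' : T.l.g.tagB ≠ some b := by
      have h : fillH F M T i j .B = false := hl
      rw [hB, if_pos (by omega)] at h
      simpa using h
    rw [hin (h := .O k) trivial]
    simp only [rowVal, decide_eq_false_iff_not]
    rintro ⟨⟨x, y⟩, hc, rfl, -⟩
    exact hl' ((hT.crossing x y).mp hc).2.2.2
  · rw [hin (h := .O 14) trivial, hin (h := .O 11) trivial]
    simp only [rowVal, decide_eq_true_eq, opBit_14, opBit_11, Bool.and_eq_true]
    rintro ⟨c, hc, rfl, ⟨hu, he⟩, -⟩
    exact ⟨decide_eq_true ⟨c, hc, rfl, hu⟩, he⟩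
  · intro t k hat hbt
    rw [hin (h := .P) trivial, hbt, rowVal_P_sRow, sig_side]
    show _ = fillV F M T i j .C
    simp [fillV, show M ≤ i + K ∧ i < M + K by omega, show i + K - M = a by omega,
      show j + 1 ≤ M + K by omega, hat, shown_cPos]
  · intro t k hat hbt
    rw [hin (h := .P) trivial, vin_child ha ha' hb hb' (h := .CT) trivial, hbt, rowVal_P_sRow, sig_side]
    simp [colVal, hat, shown_cPos]
  · intro q h k hat hbt
    rw [hin (h := .P) trivial, hbt, rowVal_P_sRow]
    have hs := sRow_bounds q
    show (if sRow q = 0 then _ else fillV F M T i j .Bus) = _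
    rw [if_neg (by omega), fillV_bus ha ha' q hat, decide_eq_true (by omega), Bool.true_and]
  · intro haK k hbt
    rw [hin (h := .P) trivial, hbt, rowVal_P_sRow]
    have hs := sRow_bounds (.scan k)
    show _ = (if sRow (.scan k) = 0 then _ else fillV F M T i j (.S k))
    rw [if_neg (by omega)]
    simp [fillV, sig, show i = M by omega, show j < 2 * M by omega, show M < j + K by omega,
      show j + 1 - (M + K) = 0 by omega]
  · intro c p k hac hbt
    rw [hin (h := .P) trivial, vin_child ha ha' hb hb' (h := .Uk c p k) trivial, hbt, rowVal_P_sRow]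
    simp [colVal, hac, sig]
  · intro he k hbt
    rw [hin (h := .P) trivial, vin_child ha ha' hb hb' (h := .O1 k) trivial, hbt, rowVal_P_sRow]
    simp [colVal, he]

end Vale.Agent.P196.Full.Tiles
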