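import Vale.Agent.P196.Full.Tiles.Equations.Basics

/-!
# P196: one step of the scans
-/

namespace Vale.Agent.P196.Full.Tiles

variable {v : Fin 4 → Option ℕ}

/-- One step of the scan of the values. -/
lemma scanBit_step (m x : ℕ) (i : Fin 17) :
    scanBit v m x i = scanStep (decide (x = 0)) (decide (x = m)) (fun s => decide (v s = some x))
      (scanBit v m (x + 1)) i := by
  have seen : ∀ s, ((v s).any fun w => decide (x ≤ w)) =
      (((v s).any fun w => decide (x + 1 ≤ w)) || decide (v s = some x)) := by
    intro s
    rcases v s with _ | w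
    · simp
    · rw [Bool.eq_iff_iff]; simp; omega
  obtain ⟨k, hk⟩ := i
  unfold scanStep scanBit
  by_cases h4 : k < 4
  · simp only [h4, dif_pos, seen]
  by_cases h8 : k < 8
  · simp only [h4, h8, dif_pos, dif_neg, not_false_iff, Fin.is_lt, seen]
    rw [Bool.eq_iff_iff]
    simp only [Bool.and_eq_true, Bool.or_eq_true, decide_eq_true_eq]
    constructor
    · rintro ⟨h | h, s, hs⟩
      · exact Or.inl ⟨h, s, hs⟩
      · refine Or.inr ⟨h, s, ?_⟩
        rw [h] at hs
        cases hv : v s <;> simp_all
    · rintro (⟨h, s, hs⟩ | ⟨h, s, hs⟩)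
      · exact ⟨Or.inl h, s, hs⟩
      · refine ⟨Or.inr h, s, ?_⟩
        rw [h]
        cases hv : v s <;> simp_all <;> omega
  by_cases h12 : k < 12
  · simp only [h4, h8, h12, dif_pos, dif_neg, not_false_iff]
    rw [Bool.eq_iff_iff]
    simp only [Bool.and_eq_true, decide_eq_true_eq]
    constructor <;> rintro ⟨rfl, h⟩ <;> exact ⟨rfl, h⟩
  by_cases h16 : k < 16
  · simp only [h4, h8, h12, h16, dif_pos, dif_neg, not_false_iff, seen]
    rw [Bool.eq_iff_iff]
    simp only [Bool.and_eq_true, Bool.or_eq_true, decide_eq_true_eq]
    constructor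
    · rintro ⟨h | h, h'⟩
      · exact Or.inl ⟨h, h'⟩
      · exact Or.inr ⟨Option.some.inj (h.symm.trans h'), h⟩
    · rintro (⟨h, h'⟩ | ⟨rfl, h⟩)
      · exact ⟨Or.inl h, h'⟩
      · exact ⟨Or.inr h, h⟩
  · simp only [h4, h8, h12, h16, dif_neg, not_false_iff, decide_eq_true_eq]

/-- The scan starts from zero above the largest value. -/
lemma scanBit_eq_false {m x : ℕ} (h : ∀ s w, v s = some w → w < x) (hx : x ≠ 0) (i : Fin 17) :
    scanBit v m x i = false := by
  have seen : ∀ s, ((v s).any fun w => decide (x ≤ w)) = false := by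
    intro s
    cases hv : v s with
    | none => simp
    | some w => simpa using h s w hv
  unfold scanBit
  simp only [seen, hx, decide_false, Bool.false_and, decide_eq_true_eq]
  split_ifs <;> try rfl
  simp only [decide_eq_false_iff_not]
  exact fun ⟨s, hs⟩ => (h s x hs).false

/-- One step of the scan of a coordinate. -/
lemma coordBit_step (x : ℕ) (i : Fin 9) :
    coordBit v x i = coordStep (fun s => decide (v s = some x)) (coordBit v (x + 1)) i := by
  have seen : ∀ s, ((v s).any fun w => decide (x ≤ w)) =
      (((v s).any fun w => decide (x + 1 ≤ w)) || decide (v s = some x)) := by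
    intro s
    rcases v s with _ | w
    · simp
    · rw [Bool.eq_iff_iff]; simp; omega
  obtain ⟨k, hk⟩ := i
  unfold coordStep coordBit
  by_cases h4 : k < 4
  · simp only [h4, dif_pos, seen]
  by_cases h8 : k < 8
  · simp only [h4, h8, dif_pos, dif_neg, not_false_iff, Fin.is_lt, seen]
    rw [Bool.eq_iff_iff]
    simp only [Bool.and_eq_true, Bool.or_eq_true, decide_eq_true_eq]
    constructor
    · rintro ⟨h | h, s, hs⟩
      · exact Or.inl ⟨h, s, hs⟩
      · refine Or.inr ⟨h, s, ?_⟩
        rw [h] at hs
        cases hv : v s <;> simp_all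
    · rintro (⟨h, s, hs⟩ | ⟨h, s, hs⟩)
      · exact ⟨Or.inl h, s, hs⟩
      · refine ⟨Or.inr h, s, ?_⟩
        rw [h]
        cases hv : v s <;> simp_all <;> omega
  · simp only [h4, h8, dif_neg, not_false_iff, decide_eq_true_eq]

/-- The scan of a coordinate starts from zero above the rows of the block. -/
lemma coordBit_eq_false {x : ℕ} (h : ∀ s w, v s = some w → w < x) (i : Fin 9) :
    coordBit v x i = false := by
  have seen : ∀ s, ((v s).any fun w => decide (x ≤ w)) = false := by
    intro s
    cases hv : v s with
    | none => simp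
    | some w => simpa using h s w hv
  unfold coordBit
  simp only [seen, Bool.false_and]
  split_ifs <;> try rfl
  simp only [decide_eq_false_iff_not]
  exact fun ⟨s, hs⟩ => (h s x hs).false

/-- Above a marker of nearby values only the next value is seen. -/
lemma scanOnce_scanBit {m x : ℕ} (h : ∀ s s' w w', v s = some w → v s' = some w' → w ≤ w' + 1) :
    ScanOnce (fun s => decide (v s = some x)) (scanBit v m (x + 1)) := by
  intro k s hk hs
  simp only [decide_eq_true_eq] at hk
  have top : ∀ r w, v r = some w → w ≤ x + 1 := fun r w hw => h r k w x hw hk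
  simp only [scanBit, Fin.is_lt, dif_pos] at hs
  rw [Option.any_eq_true] at hs
  obtain ⟨w, hw, hx⟩ := hs
  simp only [decide_eq_true_eq] at hx
  have := top s w hw
  refine ⟨?_, ?_, fun t => ?_⟩
  · simpa [scanBit] using ⟨s, (show w = x + 1 by omega) ▸ hw⟩
  · simp [scanBit, hk]
  · have ht : ¬(4 + (t : ℕ) < 4) := by omega
    simp only [scanBit, dif_neg ht, show 4 + (t : ℕ) < 8 by omega, dif_pos, Nat.add_sub_cancel_left,
      Fin.eta, Bool.and_eq_false_iff, decide_eq_false_iff_not]
    cases ht' : v t with
    | none => simp
    | some y =>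
      by_cases hy : x + 1 ≤ y
      · right
        rintro ⟨r, hr⟩
        cases hr' : v r with
        | none => simp [hr'] at hr
        | some z =>
          have := top r z hr'
          simp [hr'] at hr
          omega
      · left; simpa using hy

/-- Above a marker of nearby coordinates only the next coordinate is seen. -/
lemma coordOnce_coordBit {x : ℕ} (h : ∀ s s' w w', v s = some w → v s' = some w' → w ≤ w' + 1) :
    CoordOnce (fun s => decide (v s = some x)) (coordBit v (x + 1)) := by
  intro k s hk hs
  simp only [decide_eq_true_eq] at hk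
  have top : ∀ r w, v r = some w → w ≤ x + 1 := fun r w hw => h r k w x hw hk
  simp only [coordBit, Fin.is_lt, dif_pos] at hs
  rw [Option.any_eq_true] at hs
  obtain ⟨w, hw, hx⟩ := hs
  simp only [decide_eq_true_eq] at hx
  have := top s w hw
  refine ⟨?_, ?_, fun t => ?_⟩
  · simpa [coordBit] using ⟨s, (show w = x + 1 by omega) ▸ hw⟩
  · simp [coordBit, hk]
  · have ht : ¬(4 + (t : ℕ) < 4) := by omega
    simp only [coordBit, dif_neg ht, show 4 + (t : ℕ) < 8 by omega, dif_pos, Nat.add_sub_cancel_left,
      Fin.eta, Bool.and_eq_false_iff, decide_eq_false_iff_not]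
    cases ht' : v t with
    | none => simp
    | some y =>
      by_cases hy : x + 1 ≤ y
      · right
        rintro ⟨r, hr⟩
        cases hr' : v r with
        | none => simp [hr'] at hr
        | some z =>
          have := top r z hr'
          simp [hr'] at hr
          omega
      · left; simpa using hy

end Vale.Agent.P196.Full.Tiles
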